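import Vale.Agent.P281Z.Md.Defs
import Vale.Agent.P281Z.Mf.Fib
import Vale.Agent.P281.H737.Gen.Exc
import Vale.Agent.P281.H485.Gen.Har

/-!
# P281Z, block MODEL: the image of the exceptional set is removable
-/

open scoped Manifold ContDiff Topology
open Set Filter Function
open Vale.Agent.P272.K Vale.Agent.P285.H281.FD
open Vale.Agent.P277Z (Hol at_chart)

noncomputable section

namespace Vale.Agent.P281Z.Md

namespace ExcH

variable {n : ℕ} {X X₁ : Type} [TopologicalSpace X] [ChartedSpace (Cm n) X] [TopologicalSpace X₁]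
  [ChartedSpace (Cm n) X₁] [IsManifold 𝓘(ℂ, Cm n) ω X] [IsManifold 𝓘(ℂ, Cm n) ω X₁] {u : X₁ → X}

theorem hol_iff {s : X → ℂ} {x : X} : P281.J.HolAt (Cm n) s x ↔ Hol n s x := by
  refine ⟨fun h e he => ?_, fun h => ?_⟩
  · have h1 : ContMDiffAt 𝓘(ℂ, Cm n) 𝓘(ℂ, ℂ) ω (fun z => s (e.symm z)) (e x) :=
      ContMDiffAt.comp (e x) (g := s) (by rw [he.left_inv]; exact h)
        (chart_symm_contMDiffAt he.1 he.mem_target)
    exact (contMDiffAt_iff_contDiffAt.1 h1).analyticAt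
  · have he := at_chart (n := n) x
    have h1 : ContMDiffAt 𝓘(ℂ, Cm n) 𝓘(ℂ, ℂ) ω
        (fun y => s ((chartAt (Cm n) x).symm (chartAt (Cm n) x y))) x :=
      ContMDiffAt.comp x (g := fun z => s ((chartAt (Cm n) x).symm z))
        (contMDiffAt_iff_contDiffAt.2 (h _ he).contDiffAt) (chart_contMDiffAt he)
    refine h1.congr_of_eventuallyEq ?_
    filter_upwards [at_near he] with y k
    rw [k.left_inv]

theorem imm_iff (h : HolM n n u) (x : X₁) :
    Imm n n u x ↔ Bijective (mfderiv 𝓘(ℂ, Cm n) 𝓘(ℂ, Cm n) u x) := by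
  have he := at_chart (n := n) x
  have he' := at_chart (n := n) (u x)
  have h1 := P281.H737.Gen.bij_iff (x₀ := x) (y₀ := u x) (u := u) he.mem_target (h _)
    (by rw [he.left_inv]; exact he'.2)
  rw [he.left_inv] at h1
  rw [← h1]
  exact ⟨fun k => ⟨k _ _ he he', imm_iff_sbm.1 k _ _ he he'⟩,
    fun k => Imm.of_chart (h.at x) he he' k.1⟩

theorem exc_eq (h : HolM n n u) : P281.H64.Gen.excSet (Cm n) u = {x | ¬ Imm n n u x} :=
  Set.ext fun x => not_congr (imm_iff h x).symm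

theorem modif [T2Space X] [T2Space X₁] [CompactSpace X₁] (h : WM n u) :
    P281.H713.TZ.S.IsModif (Cm n) u := by
  have hc := h.hol.cont
  refine ⟨⟨inferInstance, inferInstance, inferInstance, inferInstance⟩, h.hol, hc.isProperMap,
    u '' {x | Imm n n u x}, isOpen_iff_mem_nhds.2 ?_, h.surj.denseRange.dense_image hc h.dense,
    h.dense.mono (subset_preimage_image _ _), ?_⟩
  · rintro _ ⟨x, hx, rfl⟩
    exact (imm_iff_sbm.1 hx).ev (h.hol.at x) (Imm.near hx (h.hol.at x))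
  · rintro _ ⟨x, hx, rfl⟩
    exact ⟨x, rfl, fun x' k => h.one x x' hx k⟩

end ExcH

theorem exc : EXC := by
  intro n V V₁ u h
  have h1 := P281.H737.Gen.exc n V.X V₁.X u (ExcH.modif h)
  rw [ExcH.exc_eq h.hol] at h1
  refine ⟨h1.1, P281.H383.Gen.dense_compl_small (P281.H485.Gen.IsSmall2.small h1),
    fun U s hU hs => ?_⟩
  obtain ⟨s', k1, k2⟩ := P281.H485.Gen.har n V.X _ U s h1 hU
    fun x hx hN => ExcH.hol_iff.2 (hs x hx hN)
  exact ⟨s', fun x hx => ExcH.hol_iff.1 (k1 x hx), k2⟩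

end Vale.Agent.P281Z.Md
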