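import Vale.Agent.P281Z.Md.Defs
import Vale.Agent.P277Z.Hl.Desc

/-!
# P281Z, block MODEL: bounds are checked at general points of the divisors
-/

open scoped Manifold ContDiff Topology
open Set Filter Function
open Vale.Agent.P272.K Vale.Agent.P285.H281.FD
open Vale.Agent.P277Z
open Vale.Agent.P277Z.Slc (Ind LEq Snc dd dd_mul dd_congr)

set_option linter.unusedSectionVars false

noncomputable section

namespace Vale.Agent.P281Z.Md

section bnd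

variable {X : Type} [TopologicalSpace X] {S S' : Set X} {F F' : X → ℝ} {x : X}

theorem Bnd.near (h : Bnd S F x) : ∀ᶠ y in 𝓝 x, Bnd S F y :=
  h.elim fun C k => k.eventually_nhds.mono fun _ k => ⟨C, k⟩

theorem Bnd.mono (h : Bnd S F x) (k : ∀ᶠ y in 𝓝 x, y ∈ S' → y ∈ S ∧ F' y ≤ F y) : Bnd S' F' x :=
  h.imp fun _ h => (h.and k).mono fun _ a b => (a.2 b).2.trans (a.1 (a.2 b).1)

theorem bnd_cont (h : ContinuousAt F x) : Bnd S F x :=
  ⟨F x + 1, (h.eventually_lt continuousAt_const (lt_add_one _)).mono fun _ a _ => a.le⟩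

theorem Bnd.mul (h : Bnd S F x) (h' : Bnd S F' x) (k : ∀ y, 0 ≤ F y) (k' : ∀ y, 0 ≤ F' y) :
    Bnd S (fun y => F y * F' y) x :=
  let ⟨C, a⟩ := h
  let ⟨C', a'⟩ := h'
  ⟨C * C', (a.and a').mono fun y b c => mul_le_mul (b.1 c) (b.2 c) (k' y) ((k y).trans (b.1 c))⟩

theorem Bnd.sum {ι : Type} [Fintype ι] {F : ι → X → ℝ} (h : ∀ i, Bnd S (F i) x) :
    Bnd S (fun y => ∑ i, F i y) x := by
  choose C hC using h
  exact ⟨∑ i, C i, (eventually_all.2 hC).mono fun y a b => Finset.sum_le_sum fun i _ => a i b⟩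

theorem Bnd.comp {X₁ : Type} [TopologicalSpace X₁] {u : X₁ → X} {x₁ : X₁} (h : Bnd S F (u x₁))
    (hu : ContinuousAt u x₁) : Bnd (u ⁻¹' S) (fun y => F (u y)) x₁ :=
  h.imp fun _ h => hu.eventually h

theorem exp_nonneg {φ ζ : X → ℝ} {r : ℝ} (hS : ∃ᶠ y in 𝓝 x, y ∈ S) (h1 : ContinuousAt φ x)
    (h2 : 0 < φ x) (h3 : ContinuousAt ζ x) (h4 : ζ x = 0) (h5 : ∀ᶠ y in 𝓝 x, y ∈ S → 0 < ζ y)
    (h : Bnd S (fun y => φ y * ζ y ^ r) x) : 0 ≤ r := by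
  by_contra! hr
  obtain ⟨C, h⟩ := h
  have : (𝓝[S] x).NeBot := mem_closure_iff_nhdsWithin_neBot.1 (mem_closure_iff_frequently.2 hS)
  have k : Tendsto ζ (𝓝[S] x) (𝓝[>] 0) := tendsto_nhdsWithin_iff.2
    ⟨h4 ▸ h3.continuousWithinAt, eventually_nhdsWithin_iff.2 h5⟩
  obtain ⟨y, a, b⟩ := (((h1.continuousWithinAt.tendsto.pos_mul_atTop h2
    ((tendsto_rpow_neg_nhdsGT_zero hr).comp k)).eventually_gt_atTop C).and
      (eventually_nhdsWithin_iff.2 h)).exists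
  exact absurd b (not_le.2 a)

/-- the extension by limits -/
def ext (S : Set X) (w : X → ℂ) (x : X) : ℂ := limUnder (𝓝[S] x) w

theorem ext_eq {w H : X → ℂ} (hS : ∃ᶠ y in 𝓝 x, y ∈ S) (hH : ContinuousAt H x)
    (h : ∀ᶠ y in 𝓝 x, y ∈ S → H y = w y) : ext S w x = H x :=
  have : (𝓝[S] x).NeBot := mem_closure_iff_nhdsWithin_neBot.1 (mem_closure_iff_frequently.2 hS)
  (hH.continuousWithinAt.tendsto.congr' (eventually_nhdsWithin_iff.2 h)).limUnder_eq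

end bnd

variable {n : ℕ} {X : Type} [TopologicalSpace X] [ChartedSpace (Cm n) X]
  [IsManifold 𝓘(ℂ, Cm n) ω X] {S S' D : Set X} {x : X} {a b h ζ : X → ℂ} {e : Chart n X}

theorem ext_ev {w H : X → ℂ} (hS : ∀ᶠ y in 𝓝 x, ∃ᶠ z in 𝓝 y, z ∈ S) (hH : Hol n H x)
    (h : ∀ᶠ y in 𝓝 x, y ∈ S → H y = w y) : ∀ᶠ y in 𝓝 x, H y = ext S w y := by
  filter_upwards [hS, hH.near, h.eventually_nhds] with y a b c using (ext_eq a b.cont c).symm

theorem Gn.inter (h : Gn n S x) (h' : Gn n S' x) : Gn n (S ∩ S') x :=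
  let ⟨_, a, b, c⟩ := h
  let ⟨_, a', b', c'⟩ := h'
  ⟨_, a.mul a', b.mul a a' b', (c.and c').mono fun _ k l =>
    ⟨k.1 (left_ne_zero_of_mul l), k.2 (right_ne_zero_of_mul l)⟩⟩

theorem Gn.mono (h : Gn n S x) (k : ∀ᶠ y in 𝓝 x, y ∈ S → y ∈ S') : Gn n S' x :=
  h.imp fun _ ⟨a, b, c⟩ => ⟨a, b, (c.and k).mono fun _ l m => l.2 (l.1 m)⟩

theorem gn_of_thin (h : Thin n S) (x : X) : Gn n Sᶜ x :=
  (h.nz x).imp fun _ ⟨a, b, c⟩ => ⟨a, b, c.mono fun _ l => mt l⟩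

theorem gn_off {κ : Type} [Finite κ] {G : κ → Set X} (h : Snc n G) (x : X) : Gn n (off G) x :=
  compl_compl (off G) ▸ gn_of_thin (snc_thin_off h) x

theorem Gn.near (h : Gn n S x) : ∀ᶠ y in 𝓝 x, Gn n S y := by
  obtain ⟨t, a, b, c⟩ := h
  filter_upwards [a.near, b.near a, c.eventually_nhds] with y a b c using ⟨t, a, b, c⟩

theorem Gn.gen (h : Gn n S x) : ∀ᶠ y in gen {x}, y ∈ S :=
  let ⟨_, a, b, c⟩ := h
  ((b.gen a).and (gen_of_nhds c)).mono fun _ k => k.2 k.1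

theorem Gn.freq (h : Gn n S x) : ∃ᶠ y in 𝓝 x, y ∈ S :=
  (gen_frequently h.gen).mono fun _ k => k.self_of_nhds

theorem Gn.freq' (h : Gn n S x) : ∀ᶠ y in 𝓝 x, ∃ᶠ z in 𝓝 y, z ∈ S := h.near.mono fun _ => Gn.freq

theorem riem (hS : Gn n S x) (hh : ∀ᶠ y in 𝓝 x, y ∈ S → Hol n h y)
    (hb : Bnd S (fun y => ‖h y‖) x) : ∃ H, Hol n H x ∧ ∀ᶠ y in 𝓝 x, y ∈ S → H y = h y := by
  obtain ⟨t, a, b, c⟩ := hS
  obtain ⟨C, hb⟩ := hb
  obtain ⟨H, h1, h2⟩ := Hl.Ds.riem (C := C) a b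
    (by filter_upwards [c, hh, hb] with y c1 c2 c3 c4 using ⟨c2 (c1 c4), c3 (c1 c4)⟩)
  refine ⟨H, h1, ?_⟩
  filter_upwards [h1.near, hh, gen_near ((b.gen a).and (gen_of_nhds h2))] with y c1 c2 c3 c4
    using eq_of_gen c1.cont (c2 c4).cont (c3.mono fun _ k => k.2 k.1)

/-! ### local equations are prime -/

theorem leq_prime (he : At e x) (h : LEq n D x ζ) (hx : x ∈ D) : Prime (gW e x ζ) := by
  refine UniqueFactorizationMonoid.irreducible_iff_prime.1 ⟨fun k => (isUnit_gW he h.hol).1 k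
    (h.mem.2 hx), fun p q k => ?_⟩
  obtain ⟨p, hp, rfl⟩ := gW_surj he p
  obtain ⟨q, hq, rfl⟩ := gW_surj he q
  rw [← gW_mul he hp hq, gW_eq_iff he h.hol (hp.mul hq)] at k
  by_contra! c
  rw [isUnit_gW he hp, isUnit_gW he hq, not_not, not_not] at c
  refine (h.2 e he).2 (h.mem.2 hx) ((dd_congr k he).trans ?_)
  rw [dd_mul hp hq c.2 he, c.1]
  exact ContinuousLinearMap.ext fun _ => zero_mul _

theorem leq_red (h : LEq n D x ζ) (hx : x ∈ D) : Red n ζ x :=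
  (red_near (at_chart x) h.hol (leq_prime (at_chart x) h hx).isRadical).self_of_nhds

theorem ndv (h : LEq n D x ζ) (hx : x ∈ D) (ha : Hol n a x) (k : ¬ Dvd n ζ a x) :
    ∀ᶠ y in 𝓝 x, y ∈ D → ∃ᶠ z in 𝓝 y, z ∈ D ∧ a z ≠ 0 := by
  have he := at_chart (n := n) x
  have h1 : Cop n a ζ x := (cop_iff he ha h.hol (leq_nz h)).2
    ((leq_prime he h hx).irreducible.isRelPrime_iff_not_dvd.2 (mt (gW_dvd he h.hol ha).1 k))
  filter_upwards [h1.near ha h.hol (leq_nz h), h.near, ha.near] with y c1 c2 c3 hy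
  by_contra c
  obtain ⟨d, -, hd⟩ := c1 _ (hol_const 1 y) ((leq_red c2 hy a c3 (by
    filter_upwards [not_frequently.1 c, c2.1] with z c4 c5 c6 using
      not_not.1 fun c7 => c4 ⟨c5.1 c6, c7⟩)).congr (.of_forall fun _ => (one_mul _).symm))
  simpa [c2.mem.2 hy] using hd.self_of_nhds

theorem exists_ord (h : LEq n D x ζ) (hx : x ∈ D) (ha : Hol n a x) (h0 : Nz a x) :
    ∃ (j : ℕ) (b : X → ℂ), Hol n b x ∧ ¬ Dvd n ζ b x ∧ ∀ᶠ y in 𝓝 x, a y = ζ y ^ j * b y := by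
  have he := at_chart (n := n) x
  obtain ⟨j, b, h1, h2⟩ := WfDvdMonoid.max_power_factor ((gW_ne_zero he ha).2 h0)
    (leq_prime he h hx).irreducible
  obtain ⟨b, hb, rfl⟩ := gW_surj he b
  rw [← gW_pow he h.hol, ← gW_mul he (h.hol.pow j) hb, gW_eq_iff he ha ((h.hol.pow j).mul hb)] at h2
  exact ⟨j, b, hb, mt (gW_dvd he h.hol hb).2 h1, h2⟩

theorem gW_prod (he : At e x) {ι : Type} (s : Finset ι) {f : ι → X → ℂ} (hf : ∀ i, Hol n (f i) x) :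
    gW e x (fun y => ∏ i ∈ s, f i y) = ∏ i ∈ s, gW e x (f i) := by
  classical
  induction s using Finset.induction_on with
  | empty => simpa using gW_const e x 1
  | insert i s hi ih =>
    simp only [Finset.prod_insert hi]
    rw [gW_mul he (hf i) (Hol.prod s fun i _ => hf i), ih]

section snc

variable {κ : Type} [Fintype κ] {G : κ → Set X} {ζ : κ → X → ℂ} {c : κ → ℝ}

theorem ne_off (hζ : ∀ l, LEq n (G l) x (ζ l)) : ∀ᶠ y in 𝓝 x, y ∈ off G → ∀ l, ζ l y ≠ 0 :=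
  (eventually_all.2 fun l => (hζ l).1).mono fun _ a b l c => b l ((a l).1 c)

theorem not_dvd (hζ : ∀ l, LEq n (G l) x (ζ l)) (hi : Ind n (fun l : {l // x ∈ G l} => ζ l) x)
    {l l' : κ} (hl : x ∈ G l) (k : l' ≠ l) : ¬ Dvd n (ζ l) (ζ l') x := fun ⟨d, h1, h2⟩ => by
  have he := at_chart (n := n) x
  have h3 : x ∈ G l' := (hζ l').mem.1 (by rw [h2.self_of_nhds, (hζ l).mem.2 hl, mul_zero])
  have h4 := (dd_congr h2 he).trans (dd_mul h1 (hζ l).hol ((hζ l).mem.2 hl) he)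
  exact (hi.2 _ he).notMem_span_image (s := {⟨l, hl⟩}) (x := ⟨l', h3⟩) (by simpa using k)
    (h4 ▸ Submodule.smul_mem _ _ (Submodule.subset_span ⟨_, rfl, rfl⟩))

theorem relPrime (hζ : ∀ l, LEq n (G l) x (ζ l)) (hi : Ind n (fun l : {l // x ∈ G l} => ζ l) x)
    (he : At e x) {l l' : κ} (k : l ≠ l') : IsRelPrime (gW e x (ζ l)) (gW e x (ζ l')) := by
  by_cases hl : x ∈ G l
  · exact (leq_prime he (hζ l) hl).irreducible.isRelPrime_iff_not_dvd.2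
      (mt (gW_dvd he (hζ l).hol (hζ l').hol).1 (not_dvd hζ hi hl k.symm))
  · exact ((isUnit_gW he (hζ l).hol).2 (mt (hζ l).mem.1 hl)).isRelPrime_left

/-- general points of a component -/
theorem gen_pt [DecidableEq κ] (hζ : ∀ l, LEq n (G l) x (ζ l))
    (hi : Ind n (fun l : {l // x ∈ G l} => ζ l) x) {l : κ} (hl : x ∈ G l) (ha : Hol n a x)
    (k : ¬ Dvd n (ζ l) a x) : ∀ᶠ y in 𝓝 x, y ∈ G l →
      ∃ᶠ z in 𝓝 y, z ∈ G l ∧ a z ≠ 0 ∧ ∀ l', l' ≠ l → ζ l' z ≠ 0 := by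
  have he := at_chart (n := n) x
  have h1 := Hol.prod (Finset.univ.erase l) fun l' _ => (hζ l').hol
  refine (ndv (hζ l) hl (ha.mul h1) fun d => ?_).mono fun y b c => (b c).mono fun z d =>
    ⟨d.1, left_ne_zero_of_mul d.2, fun l' h => Finset.prod_ne_zero_iff.1
      (right_ne_zero_of_mul d.2) l' (Finset.mem_erase.2 ⟨h, Finset.mem_univ _⟩)⟩
  rw [← gW_dvd he (hζ l).hol (ha.mul h1), gW_mul he ha h1, gW_prod he _ fun l => (hζ l).hol] at d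
  have hp := leq_prime he (hζ l) hl
  rcases hp.dvd_or_dvd d with d | d
  · exact k ((gW_dvd he (hζ l).hol ha).1 d)
  · obtain ⟨l', h2, h3⟩ := (hp.dvd_finsetProd_iff _).1 d
    exact not_dvd hζ hi hl (Finset.mem_erase.1 h2).1 ((gW_dvd he (hζ l).hol (hζ l').hol).1 h3)

/-- it is enough to check a bound at general points of the components -/
theorem extd (hζ : ∀ l, LEq n (G l) x (ζ l)) (hi : Ind n (fun l : {l // x ∈ G l} => ζ l) x)
    (hS : Gn n S x) (hG : S ⊆ off G) (hh : ∀ᶠ y in 𝓝 x, y ∈ S → Hol n h y)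
    (ha : ∃ N : ℕ, Bnd S (fun y => ‖h y‖ * ‖∏ l, ζ l y‖ ^ N) x)
    (hb : ∀ l, x ∈ G l → ∃ᶠ z in 𝓝 x, z ∈ G l ∧
      Bnd S (fun y => ‖h y‖ * ∏ l, ‖ζ l y‖ ^ c l) z) :
    Bnd S (fun y => ‖h y‖ * ∏ l, ‖ζ l y‖ ^ c l) x := by
  classical
  obtain ⟨N, ha⟩ := ha
  have he := at_chart (n := n) x
  have h0 : ∀ᶠ y in 𝓝 x, ∀ l, LEq n (G l) y (ζ l) := eventually_all.2 fun l => (hζ l).near
  obtain ⟨H, h1, h2⟩ := riem (h := fun y => h y * (∏ l, ζ l y) ^ N) hS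
    ((hh.and h0).mono fun y k hy => (k.1 hy).mul ((Hol.prod _ fun l _ => (k.2 l).hol).pow N))
    (by simpa only [norm_mul, norm_pow] using ha)
  have h3 : ∀ᶠ y in 𝓝 x, y ∈ S → (∀ l, 0 < ‖ζ l y‖) ∧
      ‖h y‖ * ∏ l, ‖ζ l y‖ ^ c l = ‖H y‖ * ∏ l, ‖ζ l y‖ ^ (c l - N) := by
    filter_upwards [h2, ne_off hζ] with y k1 k2 hy
    have k3 := fun l => norm_pos_iff.2 (k2 (hG hy) l)
    refine ⟨k3, ?_⟩
    rw [k1 hy, norm_mul, norm_pow, norm_prod, ← Finset.prod_pow, mul_assoc,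
      ← Finset.prod_mul_distrib]
    congr 1
    refine Finset.prod_congr rfl fun l _ => ?_
    rw [← Real.rpow_natCast, ← Real.rpow_add (k3 l), add_sub_cancel]
  by_cases hH : Nz H x
  swap
  · refine ⟨0, ?_⟩
    filter_upwards [h3, not_not.1 hH] with y k1 k2 hy
    rw [(k1 hy).2, k2, norm_zero, zero_mul]
  have h4 : ∀ l, ∃ j : ℕ, Dvd n (fun y => ζ l y ^ j) H x ∧ (‖ζ l x‖ ≠ 0 ∨ 0 ≤ j + (c l - N)) := by
    intro l
    by_cases hl : x ∈ G l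
    swap
    · exact ⟨0, ⟨H, h1, by simp⟩, .inl (norm_ne_zero_iff.2 (mt (hζ l).mem.1 hl))⟩
    obtain ⟨j, b, k1, k2, k3⟩ := exists_ord (hζ l) hl h1 hH
    refine ⟨j, ⟨b, k1, k3.mono fun y k => k.trans (mul_comm _ _)⟩, .inr ?_⟩
    obtain ⟨y, ⟨a1, a2⟩, a3, a4⟩ := ((hb l hl).and_eventually ((gen_pt hζ hi hl k1 k2).and
      ((h0.and (k1.near.and (hS.near.and (h3.and k3).eventually_nhds))).eventually_nhds))).exists
    obtain ⟨z, ⟨b1, b2, b3⟩, b4, b5, b6, b7, b8⟩ :=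
      ((a3 a1).and_eventually (a2.near.and a4)).exists
    refine exp_nonneg (φ := fun y => ‖b y‖ * ∏ l' ∈ Finset.univ.erase l, ‖ζ l' y‖ ^ (c l' - N))
      (ζ := fun y => ‖ζ l y‖) b7.freq (b6.cont.norm.mul (tendsto_finsetProd _ fun l' k =>
        (b5 l').hol.cont.norm.rpow_const (.inl (norm_ne_zero_iff.2
          (b3 l' (Finset.mem_erase.1 k).1))))) (mul_pos (norm_pos_iff.2 b2) (Finset.prod_pos
        fun l' k => Real.rpow_pos_of_pos (norm_pos_iff.2 (b3 l' (Finset.mem_erase.1 k).1)) _))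
      (b5 l).hol.cont.norm (norm_eq_zero.2 ((b5 l).mem.2 b1))
      (b8.mono fun w k hw => (k.1 hw).1 l) (b4.mono (b8.mono fun w k hw => ⟨hw, le_of_eq ?_⟩))
    rw [(k.1 hw).2, k.2, norm_mul, norm_pow, ← Finset.mul_prod_erase _ _ (Finset.mem_univ l),
      Real.rpow_add ((k.1 hw).1 l), Real.rpow_natCast]
    ring
  choose j h5 h6 using h4
  have h7 := fun l => (hζ l).hol.pow (j l)
  obtain ⟨H', h8, h9⟩ : Dvd n (fun y => ∏ l, ζ l y ^ j l) H x := by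
    rw [← gW_dvd he (Hol.prod _ fun l _ => h7 l) h1, gW_prod he _ h7]
    refine Finset.prod_dvd_of_isRelPrime (fun l _ l' _ k => ?_) fun l _ =>
      (gW_dvd he (h7 l) h1).2 (h5 l)
    simp only [onFun, gW_pow he (hζ _).hol]
    exact (relPrime hζ hi he k).pow
  refine (bnd_cont (S := S) (F := fun y => ‖H' y‖ * ∏ l, ‖ζ l y‖ ^ (j l + (c l - N)))
    (h8.cont.norm.mul (tendsto_finsetProd _ fun l _ =>
      (hζ l).hol.cont.norm.rpow_const (h6 l)))).mono ?_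
  filter_upwards [h3, h9] with y k1 k2 hy
  refine ⟨hy, le_of_eq ?_⟩
  rw [(k1 hy).2, k2, norm_mul, norm_prod, mul_assoc, ← Finset.prod_mul_distrib]
  congr 1
  refine Finset.prod_congr rfl fun l _ => ?_
  rw [Real.rpow_add ((k1 hy).1 l), Real.rpow_natCast, norm_pow]

/-- it is enough to check a bound at the points which lie on one component -/
theorem ext1 (hζ : ∀ l, LEq n (G l) x (ζ l)) (hi : Ind n (fun l : {l // x ∈ G l} => ζ l) x)
    (hS : Gn n S x) (hG : S ⊆ off G) (hh : ∀ᶠ y in 𝓝 x, y ∈ S → Hol n h y)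
    (ha : ∃ N : ℕ, Bnd S (fun y => ‖h y‖ * ‖∏ l, ζ l y‖ ^ N) x)
    (hb : ∀ᶠ z in 𝓝 x, ∀ l, z ∈ G l → (∀ l', l' ≠ l → ζ l' z ≠ 0) → ∃ᶠ w in 𝓝 z, w ∈ G l ∧
      Bnd S (fun y => ‖h y‖ * ∏ l, ‖ζ l y‖ ^ c l) w) :
    Bnd S (fun y => ‖h y‖ * ∏ l, ‖ζ l y‖ ^ c l) x := by
  classical
  refine extd hζ hi hS hG hh ha fun l hl => ?_
  have h1 := (gen_pt hζ hi hl (hol_const 1 x) fun ⟨d, _, k⟩ => by
    simpa [(hζ l).mem.2 hl] using k.self_of_nhds).self_of_nhds hl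
  exact frequently_frequently_nhds.1
    ((h1.and_eventually hb).mono fun z k => k.2 l k.1.1 k.1.2.2)

end snc

end Vale.Agent.P281Z.Md
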