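import Vale.Agent.P281Z.Md.Defs
import Mathlib.Analysis.Calculus.FDeriv.Symmetric

/-!
# P281Z, block MODEL: the order of a minimal minor
-/

open scoped Topology
open Set Filter Function
open Vale.Agent.P272.K

noncomputable section

namespace Vale.Agent.P281Z.Md

namespace JacH

variable {ι : Type} [Fintype ι] [DecidableEq ι] {p : ℕ}

/-- the determinant as a function of the rows -/
def DD (p : ℕ) : ContinuousMultilinearMap ℂ (fun _ : Fin p => Fin p → ℂ) ℂ :=
  ⟨(Matrix.detRowAlternating (n := Fin p) (R := ℂ)).toMultilinearMap,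
    Continuous.matrix_det (A := fun x : Fin p → Fin p → ℂ => Matrix.of x) continuous_id⟩

theorem DD_apply (x : Fin p → Fin p → ℂ) : DD p x = (Matrix.of x).det := rfl

theorem mnr_eq (F : (ι → ℂ) → Cm p) (I : Fin p → ι) :
    mnr F I = fun w => DD p fun b => fderiv ℂ F w (Pi.single (I b) 1) := by
  funext w
  rw [DD_apply, mnr, ← Matrix.det_transpose]
  rfl

theorem cramer (F : (ι → ℂ) → Cm p) (I : Fin p → ι) (i₀ : ι) (w : ι → ℂ) (a : Fin p → ℂ)
    (h0 : mnr F I w ≠ 0) (h : ∀ b, mnr F (update I b i₀) w = a b * mnr F I w) :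
    fderiv ℂ F w (Pi.single i₀ 1) = ∑ b, a b • fderiv ℂ F w (Pi.single (I b) 1) := by
  have h1 := Matrix.mulVec_cramer
    (Matrix.of fun a b : Fin p => fderiv ℂ F w (Pi.single (I b) 1) a)
    (fderiv ℂ F w (Pi.single i₀ 1))
  have h2 : ∀ b, Matrix.cramer (Matrix.of fun a b : Fin p => fderiv ℂ F w (Pi.single (I b) 1) a)
      (fderiv ℂ F w (Pi.single i₀ 1)) b = a b * mnr F I w := fun b => by
    rw [← h b, Matrix.cramer_apply, mnr]
    congr 1
    ext c d
    by_cases e : d = b
    · subst e; simp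
    · simp [Matrix.updateCol_ne e, update_of_ne e]
  funext c
  have h3 := congrFun h1 c
  simp only [Matrix.mulVec, dotProduct, h2, Matrix.of_apply, Pi.smul_apply, smul_eq_mul] at h3
  refine mul_left_cancel₀ h0 ?_
  rw [Finset.sum_apply, Finset.mul_sum]
  refine Eq.trans h3.symm (Finset.sum_congr rfl fun b _ => ?_)
  rw [Pi.smul_apply, smul_eq_mul]
  ring

theorem key {F : (ι → ℂ) → Cm p} {I : Fin p → ι} {i₀ : ι} {w : ι → ℂ}
    {a : Fin p → (ι → ℂ) → ℂ} (hF : AnalyticAt ℂ F w) (ha : ∀ b, DifferentiableAt ℂ (a b) w)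
    (h : ∀ᶠ y in 𝓝 w, fderiv ℂ F y (Pi.single i₀ 1) =
      ∑ b, a b y • fderiv ℂ F y (Pi.single (I b) 1)) :
    fderiv ℂ (mnr F I) w (Pi.single i₀ 1 - ∑ b, a b w • Pi.single (I b) 1) =
      (∑ c, fderiv ℂ (a c) w (Pi.single (I c) 1)) * mnr F I w := by
  have hs := hF.contDiffAt.isSymmSndFDerivAt_of_omega
  have hr : ∀ ξ, HasFDerivAt (fun y => fderiv ℂ F y ξ) ((fderiv ℂ (fderiv ℂ F) w).flip ξ) w :=
    fun ξ => by
      simpa using hF.fderiv.differentiableAt.hasFDerivAt.clm_apply (hasFDerivAt_const ξ w)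
  have h1 := (HasFDerivAt.fun_sum fun b (_ : b ∈ Finset.univ) =>
    (ha b).hasFDerivAt.fun_smul (hr (Pi.single (I b) 1))).congr_of_eventuallyEq h
  have h2 := (hr _).unique h1
  have h3 : ∀ c, fderiv ℂ (fderiv ℂ F) w (Pi.single i₀ 1 - ∑ b, a b w • Pi.single (I b) 1)
      (Pi.single (I c) 1) = ∑ b, fderiv ℂ (a b) w (Pi.single (I c) 1) •
        fderiv ℂ F w (Pi.single (I b) 1) := fun c => by
    have := DFunLike.congr_fun h2 (Pi.single (I c) 1)
    simp only [ContinuousLinearMap.flip_apply, sum_apply,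
      add_apply, smul_apply,
      ContinuousLinearMap.smulRight_apply, Finset.sum_add_distrib] at this
    rw [hs.eq, map_sub, this, map_sum]
    simp only [map_smul, add_sub_cancel_left]
  have h4 := ((DD p).hasFDerivAt _).comp w
    (hasFDerivAt_pi.2 fun b : Fin p => hr (Pi.single (I b) 1))
  rw [mnr_eq]
  refine (DFunLike.congr_fun h4.fderiv _).trans ?_
  rw [ContinuousLinearMap.comp_apply, ContinuousMultilinearMap.linearDeriv_apply, Finset.sum_mul]
  refine Finset.sum_congr rfl fun c _ => ?_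
  rw [ContinuousLinearMap.pi_apply, ContinuousLinearMap.flip_apply, h3]
  exact Matrix.det_updateRow_sum (Matrix.of fun b => fderiv ℂ F w (Pi.single (I b) 1)) c _

end JacH

open JacH

theorem jac : JAC := by
  intro ι _ _ p F z i₀ I j μ a hF hz hI hμ h0 ha h
  rcases j with _ | k
  · rfl
  exfalso
  have hc : ∀ i, AnalyticAt ℂ (fun w : ι → ℂ => w i) z := fun i =>
    (ContinuousLinearMap.proj (R := ℂ) (φ := fun _ : ι => ℂ) i).analyticAt z
  set v : (ι → ℂ) → ι → ℂ := fun w => Pi.single i₀ 1 - ∑ b, a b w • Pi.single (I b) 1 with hv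
  set φ : (ι → ℂ) → ℂ := fun w => (k + 1) * μ w + w i₀ * (fderiv ℂ μ w (v w) -
    (∑ c, fderiv ℂ (a c) w (Pi.single (I c) 1)) * μ w) with hφ
  have cφ : ContinuousAt φ z := by
    have c1 : ContinuousAt v z := continuousAt_const.sub (tendsto_finsetSum _ fun b _ =>
      (ha b).continuousAt.smul continuousAt_const)
    exact (continuousAt_const.mul hμ.continuousAt).add ((hc i₀).continuousAt.mul
      ((hμ.fderiv.continuousAt.clm_apply c1).sub ((tendsto_finsetSum _ fun b _ =>
        (ha b).fderiv.continuousAt.clm_apply continuousAt_const).mul hμ.continuousAt)))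
  have e1 : ∀ᶠ w in 𝓝 z, w i₀ ≠ 0 → φ w = 0 := by
    filter_upwards [(h.and (hμ.continuousAt.eventually_ne h0)).eventually_nhds,
      hF.eventually_analyticAt, hμ.eventually_analyticAt,
      eventually_all.2 fun b => (ha b).eventually_analyticAt] with w h1 h2 h3 h4 hw
    have h5 := key (I := I) (i₀ := i₀) h2 (fun b => (h4 b).differentiableAt) (by
      filter_upwards [h1, (continuous_apply i₀).continuousAt.eventually_ne hw] with y hy hy'
      exact cramer F I i₀ y _ (by rw [hy.1.1]; exact mul_ne_zero (pow_ne_zero _ hy') hy.2) hy.1.2)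
    have h6 := (((ContinuousLinearMap.proj (R := ℂ) (φ := fun _ : ι => ℂ) i₀).hasFDerivAt
      (x := w)).pow (k + 1)).fun_mul h3.differentiableAt.hasFDerivAt
    have h7 : v w i₀ = 1 := by
      simp [hv, Finset.sum_apply, Pi.single_eq_of_ne' (hI _)]
    have h8 := DFunLike.congr_fun (h6.congr_of_eventuallyEq
      (f₁ := mnr F I) (h1.mono fun y hy => hy.1.1)).fderiv (v w)
    rw [h5, h1.self_of_nhds.1.1] at h8
    simp only [add_apply, smul_apply,
      ContinuousLinearMap.proj_apply, h7, smul_eq_mul, Nat.add_sub_cancel, nsmul_eq_mul] at h8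
    refine mul_left_cancel₀ (pow_ne_zero k hw) ?_
    rw [hφ]
    push_cast at h8
    linear_combination -h8
  have e2 : ∃ᶠ w in 𝓝 z, w i₀ ≠ 0 := by
    have t : Tendsto (fun t : ℂ => update z i₀ t) (𝓝[≠] 0) (𝓝 z) := by
      refine Tendsto.mono_left ?_ nhdsWithin_le_nhds
      have := (continuous_const.update i₀ continuous_id :
        Continuous fun t : ℂ => update z i₀ t).tendsto 0
      rwa [← hz, update_eq_self, hz] at this
    exact t.frequently (Eventually.frequently (by
      filter_upwards [self_mem_nhdsWithin] with t ht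
      simpa using ht))
  have e3 : φ z = 0 := by
    by_contra hne
    obtain ⟨w, h1, h2, h3⟩ := (e2.and_eventually (e1.and (cφ.eventually_ne hne))).exists
    exact h3 (h2 h1)
  simp only [hφ, hz, zero_mul, add_zero] at e3
  exact mul_ne_zero (by exact_mod_cast Nat.succ_ne_zero k) h0 e3

end Vale.Agent.P281Z.Md
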