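import Vale.Agent.P281Z.Md.Key

/-!
# P281Z, block MODEL: the bound on a log model
-/

open scoped Manifold ContDiff Topology
open Set Filter Function
open Vale.Agent.P272.K Vale.Agent.P285.H281.FD
open Vale.Agent.P277Z
open Vale.Agent.P277Z.Slc (Ind LEq Snc dd)

set_option linter.unusedSectionVars false

noncomputable section

namespace Vale.Agent.P281Z.Md

theorem prod_exp {κ : Type} [Fintype κ] (a : κ → ℂ) (c : κ → ℝ) (m : ℕ) :
    ∏ l, ‖a l‖ ^ (m * c l) = (∏ l, ‖a l‖ ^ c l) ^ m := by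
  simp only [← Finset.prod_pow, mul_comm (m : ℝ), Real.rpow_mul_natCast (norm_nonneg _)]

variable {n p m : ℕ} {X X₁ : Type} [TopologicalSpace X] [ChartedSpace (Cm n) X]
  [IsManifold 𝓘(ℂ, Cm n) ω X] [TopologicalSpace X₁] [ChartedSpace (Cm n) X₁]
  [IsManifold 𝓘(ℂ, Cm n) ω X₁] {Θ : Chart n X} {x : X} {S : Set X} {F : X → Cm p} {i₀ : Fin n}
  {t : X → ℝ} {T : Cm p → ℝ}

theorem Bnd.cpb {A B : X → ℝ} {C : ℝ} (h : Bnd S (fun y => t y * A y ^ m) x) (ht : ∀ y, 0 ≤ t y)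
    (hB : ∀ y, 0 ≤ B y) (hC : 0 < C) (k : ∀ᶠ y in 𝓝 x, y ∈ S → B y ≤ C * A y) :
    Bnd S (fun y => t y * B y ^ m) x := by
  obtain ⟨C', h⟩ := h
  refine ⟨C ^ m * C', (h.and k).mono fun y a hy => ?_⟩
  refine (mul_le_mul_of_nonneg_left (pow_le_pow_left₀ (hB y) (a.2 hy) m) (ht y)).trans ?_
  rw [mul_pow, mul_left_comm]
  exact mul_le_mul_of_nonneg_left (a.1 hy) (by positivity)

theorem logd {q r : ℕ} {A : X → Cm q} {g : X → ℂ} {i : Fin q} (h : Ca Θ x) (hA : AnV n A x)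
    (hg : Hol n g x) (h0 : g x ≠ 0) (he : ∀ᶠ y in 𝓝 x, A y i = g y * Θ y i₀ ^ r) (k : Fin n) :
    ∃ B : ℝ, ∀ᶠ y in 𝓝 x, y ∈ S →
      ‖wt Θ {i₀} k y * dv A Θ y (Pi.single k 1) i‖ ≤ B * ‖A y i‖ := by
  obtain ⟨B, hB⟩ := bnd_cont (S := S) (F := fun y => ‖wt Θ {i₀} k y * dv g Θ y (Pi.single k 1) / g y +
    if k = i₀ then (r : ℂ) else 0‖) ((((wt_hol h {i₀} k).cont.mul ((dv_cont h hg).clm_apply
    (continuousAt_const (y := Pi.single k 1)))).div hg.cont h0).add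
    (continuousAt_const (y := if k = i₀ then (r : ℂ) else 0))).norm
  refine ⟨B, ?_⟩
  filter_upwards [hB, h.near, anV_near hA, hg.near, hg.ne_near h0, he.eventually_nhds]
    with y a1 a2 a3 a4 a5 a6 hy
  refine le_trans (le_of_eq ?_) (mul_le_mul_of_nonneg_right (a1 hy) (norm_nonneg _))
  have h1 : HasFDerivAt (fun w => A (Θ.symm w) i) _ (Θ y) :=
    ((a2.an a4).differentiableAt.hasFDerivAt.fun_mul
      ((hasFDerivAt_apply (𝕜 := ℂ) i₀ (Θ y)).pow r)).congr_of_eventuallyEq (by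
      filter_upwards [a2.ev a6, Θ.eventually_right_inverse (Θ.map_source a2.2)] with w b1 b2
      rw [b1, b2])
  have h2 : dv A Θ y (Pi.single k 1) i = fderiv ℂ (fun w => A (Θ.symm w) i) (Θ y) (Pi.single k 1) := by
    rw [fderiv_apply (a2.an a3).differentiableAt i]
    rfl
  rw [← norm_mul, h2, h1.fderiv, a6.self_of_nhds, Θ.left_inv a2.2]
  congr 1
  by_cases hk : k = i₀
  · subst hk
    cases r <;> simp [wt, dv] <;> field_simp
    ring
  · simp [wt, dv, hk, Ne.symm hk]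
    field_simp

theorem wt_le (h : ‖Θ x i₀‖ ≤ 1) (K : Fin p → Fin n) :
    ‖Θ x i₀ * mn F Θ K x‖ ≤ ‖(∏ b, wt Θ {i₀} (K b) x) * mn F Θ K x‖ := by
  by_cases hK : Injective K
  swap
  · simp [mn_zero F hK]
  by_cases h1 : ∃ b, K b = i₀
  · obtain ⟨b, rfl⟩ := h1
    rw [Finset.prod_eq_single b (fun b' _ k => by simp [wt, hK.ne k]) (by simp)]
    simp [wt]
  · rw [Finset.prod_eq_one fun b _ => by simp [wt, not_exists.1 h1 b], one_mul, norm_mul]
    exact mul_le_of_le_one_left (norm_nonneg _) h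

theorem LB.wt {κ : Type} [Fintype κ] {ζ : κ → X → ℂ} {c c' : κ → ℝ} {w : Fin n → X → ℂ}
    (h : LB S (fun y => t y * ∏ l, ‖ζ l y‖ ^ c l) F Θ w m x) (ht : ∀ y, 0 ≤ t y)
    (hζ : ∀ l, ContinuousAt (ζ l) x) (h0 : ∀ᶠ y in 𝓝 x, y ∈ S → ∀ l, ζ l y ≠ 0)
    (hc : ∀ l, ζ l x ≠ 0 ∨ c l ≤ c' l) : LB S (fun y => t y * ∏ l, ‖ζ l y‖ ^ c' l) F Θ w m x :=
  fun I => by
    simpa only [mul_right_comm (t _)] using Bnd.wt
      (t := fun y => t y * ‖(∏ b, w (I b) y) * mn F Θ I y‖ ^ m)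
      (by simpa only [mul_right_comm (t _)] using h I)
      (fun y => mul_nonneg (ht y) (by positivity)) hζ h0 hc

theorem pull_bd (hJ : JAC) {u : X₁ → X} (hu : HolM n n u) {κ κ₁ : Type} [Fintype κ] [Fintype κ₁]
    {G : κ → Set X} {δ : κ → ℚ} {G₁ : κ₁ → Set X₁} {δ₁ : κ₁ → ℚ} (hG : Snc n G) (hG₁ : Snc n G₁)
    (hδ : ∀ l, δ l ≤ 1) (hL : LogM n u G δ G₁ δ₁) {x₁ : X₁} (hF : AnV n F (u x₁)) {τ : X → ℂ}
    {S₁ : Set X₁} (hS : Gn n S (u x₁)) (hSG : S ⊆ off G) (hS₁ : Gn n S₁ x₁) (hSG₁ : S₁ ⊆ off G₁)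
    (hSS : S₁ ⊆ u ⁻¹' S) (hτ : ∀ᶠ y in 𝓝 (u x₁), y ∈ S → Hol n τ y)
    (hT : ∀ᶠ y in 𝓝 (u x₁), ‖τ y‖ = T (F y) ∧ ∃ᶠ v in 𝓝 (F y), ContinuousAt T v)
    {e : Chart n X} (he : Ca e (u x₁)) (hb : ∀ ζ : κ → X → ℂ, (∀ l, LEq n (G l) (u x₁) (ζ l)) →
      LB S (fun y => ‖τ y‖ * ∏ l, ‖ζ l y‖ ^ ((m : ℝ) * δ l)) F e (fun _ _ => 1) m (u x₁))
    {Θ₁ : Chart n X₁} (h₁ : Ca Θ₁ x₁) {ζ₁ : κ₁ → X₁ → ℂ} (hζ₁ : ∀ l, LEq n (G₁ l) x₁ (ζ₁ l)) :
    LB S₁ (fun y => ‖τ (u y)‖ * ∏ l, ‖ζ₁ l y‖ ^ ((m : ℝ) * δ₁ l)) (fun y => F (u y)) Θ₁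
      (fun _ _ => 1) m x₁ := by
  classical
  obtain ⟨ζ, hζ, hi⟩ := hG (u x₁)
  obtain ⟨Θ, j, h, -, hj⟩ := exists_ca hi
  obtain ⟨ξ, hξ, hi₁⟩ := hG₁ x₁
  have hc := hu.cont.continuousAt (x := x₁)
  have h0 : ∀ l, (m : ℝ) * δ l ≤ m := fun l =>
    mul_le_of_le_one_right m.cast_nonneg (by exact_mod_cast hδ l)
  have h1 := (hb ζ hζ).chg h he hF fun _ => by positivity
  have h2 := log hJ hζ hi h hj hF hS hSG hτ hT h0 h1
  have h3 : ∀ {z}, (∀ l, LEq n (G l) (u z) (ζ l)) → ∀ᶠ y in 𝓝 z, y ∈ off G₁ → ∀ l, ζ l (u y) ≠ 0 :=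
    fun k => (hu.cont.continuousAt.eventually (ne_off k)).mono fun y a b => a (hL.sub y b)
  refine lb_one.2 fun K => ?_
  suffices H : Bnd S₁ (fun y => ‖τ (u y) * mn (fun y => F (u y)) Θ₁ K y ^ m‖ *
      ∏ l, ‖ξ l y‖ ^ ((m : ℝ) * δ₁ l)) x₁ by
    choose v v1 v2 v3 using fun l => leq_unit (hξ l) (hζ₁ l)
    simpa only [norm_mul, norm_pow, mul_right_comm, Bnd] using bd_unit
      (fun l => (v1 l).cont.tendsto) v2 v3 (fun _ => norm_nonneg _) H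
  refine ext1 hξ hi₁ hS₁ hSG₁ ?_ ?_ ?_
  · filter_upwards [hc.eventually hτ, h₁.near, hc.eventually (anV_near hF)] with y a1 a2 a3 hy using
      (hu.hol (a1 (hSS hy))).mul ((hol_mn a2 (anV_comp (hu.at y) a3) K).pow m)
  · obtain ⟨k, d, d1, d2⟩ := dvd_pow_of (a := fun y => ∏ l, ζ l (u y))
      (Hol.prod _ fun l _ => hu.hol (hζ l).hol) (fun c => by
        obtain ⟨y, a, b, c⟩ := (hS₁.freq.and_eventually ((h3 hζ).and c)).exists
        exact Finset.prod_ne_zero_iff.2 (fun l _ => b (hSG₁ a) l) c)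
      (Hol.prod Finset.univ fun l _ => (hξ l).hol) (by
        filter_upwards [h3 hζ, eventually_all.2 fun l => (hξ l).1] with y a1 a2 a3
        by_contra c
        exact Finset.prod_ne_zero_iff.2 (fun l _ => a1 (fun l' b => Finset.prod_ne_zero_iff.1 c l'
          (Finset.mem_univ _) ((a2 l').2 b)) l) a3)
    have k1 := lb_one.1 ((h1.wt (c' := fun _ => m) (fun _ => norm_nonneg _) (fun l => (hζ l).hol.cont)
      ((ne_off hζ).mono fun _ a b => a (hSG b)) fun l => .inr (h0 l)).comp1 h₁ h (hu.at _) hF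
      (fun _ => by positivity) (.of_forall hSS)) K
    refine ⟨k * m, ?_⟩
    simpa only [norm_mul, norm_pow, pow_mul] using Bnd.cmul
      (t := fun y => ‖τ (u y)‖ * ‖mn (fun y => F (u y)) Θ₁ K y‖ ^ m) (m := m)
      (by simpa only [prod_const, mul_right_comm] using k1) (fun _ => by positivity) d1.cont d2
  filter_upwards [eventually_all.2 fun l => (hξ l).near, h₁.near, hc.eventually
    ((eventually_all.2 fun l => (hζ l).near).and (h.near.and ((anV_near hF).and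
      (h1.near.and h2.near))))] with z a1 a2 ⟨a3, a4, a5, a6, a7⟩ l hl a8
  refine (frequently_pure.2 ⟨hl, ?_⟩).filter_mono (pure_le_nhds z)
  simp only [norm_mul, norm_pow]
  by_cases hz : Imm n n u z
  · obtain ⟨C, c1, c2⟩ := hL.iso z hz ζ ξ a3 a1
    have k1 := lb_one.1 (a6.comp1 a2 a4 (hu.at _) a5 (fun _ => by positivity) (.of_forall hSS)) K
    simp only [prod_exp, mul_right_comm _ _ (‖mn _ _ _ _‖ ^ m)] at k1 ⊢
    exact k1.cpb (fun _ => by positivity) (fun _ => by positivity) c1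
      ((eventually_inf_principal.1 c2).mono fun y a b => (a (hSG₁ b)).2)
  obtain ⟨l', c1, c2⟩ := hL.exc z hz
  obtain rfl : l' = l := by_contra fun c => a8 l' c ((a1 l').mem.2 c2)
  obtain ⟨Ξ, j₁, b1, -, b2⟩ := exists_ca (h := fun _ : Unit => ξ l') (x := z) ⟨fun _ => (a1 l').hol,
    fun e k => linearIndependent_unique_iff.2 (((a1 l').2 e k).2 ((a1 l').mem.2 hl))⟩
  have b3 : ∀ᶠ y in 𝓝 z, Ξ y (j₁ ()) = ξ l' y := b1.near.mono fun y k => b2 y k.2 ()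
  have b4 := a7.comp (w₁ := wt Ξ {j₁ ()}) b1 a4 (hu.at z) a5 (fun _ => norm_nonneg _)
    (.of_forall hSS) fun k i => by
      by_cases hi : i ∈ range j
      · simp only [wt, if_pos hi]
        obtain ⟨a, rfl⟩ := hi
        have k1 := anV_comp (hu.at z) a4.anV
        obtain ⟨r, g, g1, g2, g3⟩ := unit_pow (a1 l') hl (k1.hol (j a)) (by
          filter_upwards [h3 a3, hu.cont.continuousAt.eventually a4.near,
            eventually_all.2 fun l => (a1 l).1, eventually_all.2 fun l => show ∀ᶠ y in 𝓝 z, l ≠ l' →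
              ξ l y ≠ 0 from by_cases (fun k => .of_forall fun _ c => absurd k c) fun k =>
                ((a1 l).hol.ne_near (a8 l k)).mono fun _ c _ => c] with y d1 d2 d3 d4 d5
          by_contra c
          refine d1 (fun l k => ?_) a (by rwa [hj _ d2.2] at d5)
          exact by_cases (fun e : l = l' => c (e ▸ (d3 l).2 k)) fun e => d4 l e ((d3 l).2 k))
        exact logd b1 k1 g1 g2 ((g3.and b3).mono fun y c => by rw [c.1, c.2]) k
      · simp only [wt.eq_1 Θ, if_neg hi]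
        exact dv_bd b1 a4 (hu.at z) (wt_hol b1 _ k).cont k i
  have b5 : LB S₁ (fun y => ‖τ (u y)‖ * ∏ l, ‖ξ l y‖ ^ (Pi.single l' (m : ℝ) : κ₁ → ℝ) l)
      (fun y => F (u y)) Ξ (fun _ _ => 1) m z := lb_one.2 fun K => (b4 K).mono (by
    filter_upwards [b3, (a1 l').hol.cont.norm.eventually_lt continuousAt_const
      (show ‖ξ l' z‖ < 1 by simp [(a1 l').mem.2 hl])] with y d1 d2 hy
    refine ⟨hy, ?_⟩
    rw [prod_single, mul_assoc, ← mul_pow, ← norm_mul, ← d1]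
    exact mul_le_mul_of_nonneg_left (pow_le_pow_left₀ (norm_nonneg _) (wt_le (d1 ▸ d2.le) K) m)
      (norm_nonneg _))
  simpa only [mul_right_comm] using lb_one.1 ((b5.chg a2 b1 (anV_comp (hu.at z) a5)
    fun _ => by positivity).wt (c' := fun l => (m : ℝ) * δ₁ l) (fun _ => norm_nonneg _)
    (fun l => (a1 l).hol.cont) ((ne_off a1).mono fun _ a b => a (hSG₁ b)) fun l =>
      (eq_or_ne l l').symm.imp (a8 l) (by rintro rfl; simp [c1])) K

end Vale.Agent.P281Z.Md
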