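import Vale.Agent.P281Z.Md.Pull
import Vale.Agent.P281Z.Sc.Sy

/-!
# P281Z, block MODEL: pluricanonical forms on a log model
-/

open scoped Manifold ContDiff Topology
open Set Filter Function
open Vale.Agent.P272.K Vale.Agent.P285.H281.FD
open Vale.Agent.P277Z
open Vale.Agent.P277Z.Slc (Ind LEq Snc dd isLB_can)

set_option linter.unusedSectionVars false

noncomputable section

namespace Vale.Agent.P281Z.Md

variable {n p m j : ℕ} {X X₁ Y : Type} [TopologicalSpace X] [ChartedSpace (Cm n) X]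
  [TopologicalSpace X₁] [ChartedSpace (Cm n) X₁] [TopologicalSpace Y] [ChartedSpace (Cm p) Y]
  {u : X₁ → X} {s : Chart n X → X → ℂ} {O S S' : Set X} {O₁ : Set X₁} {x : X} {y : X₁}
  {e : Chart n X} {e₁ : Chart n X₁}

/-- the pull back of a pluricanonical form -/
def pb (u : X₁ → X) (m : ℕ) (s : Chart n X → X → ℂ) (e₁ : Chart n X₁) (y : X₁) : ℂ :=
  s (chartAt (Cm n) (u y)) (u y) * mn (fun z => chartAt (Cm n) (u y) (u z)) e₁ id y ^ m

/-- a holomorphic pluricanonical form on `O` -/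
structure Ten (m : ℕ) (O : Set X) (s : Chart n X → X → ℂ) : Prop where
  hol : ∀ e y, At e y → y ∈ O → Hol n (s e) y
  chg : ∀ e e' y, At e y → At e' y → y ∈ O → s e y = (jacM e e' y).det ^ m * s e' y

theorem Bnd.dense {F : X → ℝ} (h : Bnd S F x) (hS : Dense S)
    (k : ∀ᶠ y in 𝓝 x, y ∈ S' → ContinuousAt F y) : Bnd S' F x :=
  h.imp fun _ h => (h.eventually_nhds.and k).mono fun y a b => le_of_tendsto_of_frequently (a.2 b)
    (((mem_closure_iff_frequently.1 (hS y)).and_eventually a.1).mono fun _ c => c.2 c.1)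

variable [IsManifold 𝓘(ℂ, Cm n) ω X] [IsManifold 𝓘(ℂ, Cm n) ω X₁] [IsManifold 𝓘(ℂ, Cm p) ω Y]

theorem pb_eq (h : Ten m O s) (hy : u y ∈ O) (hu : HolA n n u y) (h₁ : At e₁ y) (he : At e (u y)) :
    pb u m s e₁ y = s e (u y) * mn (fun z => e (u z)) e₁ id y ^ m := by
  have hc := at_chart (n := n) (u y)
  rw [pb, h.chg _ e _ hc he hy, jac_eq hc he, mn_left (ca_of h₁) (ca_of hc) hu (anV_chart he)]
  ring

theorem pb_ev (h : Ten m O s) (hu : HolA n n u y) (h₁ : At e₁ y) (he : At e (u y)) :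
    ∀ᶠ z in 𝓝 y, u z ∈ O → pb u m s e₁ z = s e (u z) * mn (fun z => e (u z)) e₁ id z ^ m := by
  filter_upwards [hu.near, at_near h₁, hu.cont.eventually (at_near he)] with z a b c d using
    pb_eq h d a b c

theorem Ten.pb (h : Ten m O s) (hO : IsOpen O) (k : ∀ y ∈ O₁, u y ∈ O ∧ HolA n n u y) :
    Ten m O₁ (pb u m s) := by
  refine ⟨fun e y he hy => ?_, fun e e' y he he' hy => ?_⟩
  · have hc := at_chart (n := n) (u y)
    refine (((k y hy).2.hol (h.hol _ _ hc (k y hy).1)).mul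
      ((hol_mn (ca_of he) ((k y hy).2.anV hc) id).pow m)).congr ?_
    filter_upwards [pb_ev h (k y hy).2 he hc, (k y hy).2.cont.eventually (hO.mem_nhds (k y hy).1)]
      with z a b using (a b).symm
  · rw [Md.pb, Md.pb, jac_eq he he', mn_left (f := fun y => y) (ca_of he) (ca_of he') (holM_id.at y)
      ((k y hy).2.anV (at_chart _))]
    ring

theorem rk_pb {s : Fin (j + 1) → Chart n X → X → ℂ} (h : ∀ b, Ten m O (s b)) (hO : O ∈ 𝓝 (u y))
    (hu : HolA n n u y) (hi : Imm n n u y) (k : RkAt n ((Bd.can n X).pow m) s (u y)) :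
    RkAt n ((Bd.can n X₁).pow m) (fun b => pb u m (s b)) y := by
  obtain ⟨a : Chart n X, ha, h0, hI⟩ := k
  have hc := at_chart (n := n) y
  refine rkAt_of (L := P277.HD.pull u ((Bd.can n X).pow m)) (s := fun b a y => s b a (u y)) h0
    ((imm_iff_sbm.1 hi).ind hu hI) hc
    (w := fun z => mn (fun z => a (u z)) (chartAt (Cm n) y) id z ^ m) ?_
  filter_upwards [(hol_mn (ca_of hc) (hu.anV ha) id).ne_near (mn_ne_iff.2 (hi _ _ hc ha)),
    eventually_all.2 fun b => pb_ev (h b) hu hc ha, hu.cont.eventually hO] with z a1 a2 a3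
    using ⟨pow_ne_zero _ a1, fun b => (a2 b a3).trans (mul_comm _ _)⟩

theorem WM.dense_img (hu : WM n u) (h1 : IsOpen O₁) (h2 : Dense O₁) :
    Dense (u '' ({y | Imm n n u y} ∩ O₁)) :=
  hu.surj.denseRange.dense_image hu.hol.cont (hu.dense.inter_of_isOpen_right h2 h1)

theorem rk_pull (hu : WM n u) {s : Fin (j + 1) → Chart n X → X → ℂ} (h : ∀ b, Ten m O (s b))
    (hO : IsOpen O) (h1 : IsOpen O₁) (h2 : Dense O₁) (k : Rk n O ((Bd.can n X).pow m) s) :
    Rk n O₁ ((Bd.can n X₁).pow m) fun b => pb u m (s b) := by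
  obtain ⟨x, hx, a, ha, h0, hI⟩ := k
  obtain ⟨_, ⟨y, a1, rfl⟩, a2, a3⟩ := ((mem_closure_iff_frequently.1 (hu.dense_img h1 h2 x)).and_eventually
    ((hO.eventually_mem hx).and ((at_near ha).and (((h 0).hol a x ha hx).ne_near h0 |>.and hI.near)))).exists
  exact ⟨y, a1.2, rk_pb h (hO.mem_nhds a2) (hu.hol.at y) a1.1 ⟨a, a3⟩⟩

theorem gen_val {f : X → Y} {e' : Chart p Y} {τ : Y → ℂ} {O : Set Y} (hf : ContinuousAt f x)
    (he' : At e' (f x)) (hO : Dense O) (hτ : ∀ y, At e' y → y ∈ O → Hol p τ y) :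
    ∀ᶠ y in 𝓝 x, ‖τ (f y)‖ = ‖τ (e'.symm (e' (f y)))‖ ∧
      ∃ᶠ v in 𝓝 (e' (f y)), ContinuousAt (fun v => ‖τ (e'.symm v)‖) v := by
  filter_upwards [hf.eventually (at_near he')] with y hy
  exact ⟨by rw [hy.left_inv], (e'.continuousAt hy.2).tendsto.frequently
    (((mem_closure_iff_frequently.1 (hO (f y))).and_eventually (at_near hy)).mono fun z k =>
      (hτ z k.2 k.1 e' k.2).continuousAt.norm)⟩

theorem Gn.pre (h : Gn n S (u y)) (hs : Imm n n u y) (hu : HolA n n u y) : Gn n (u ⁻¹' S) y :=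
  let ⟨_, a, b, c⟩ := h
  ⟨_, hu.hol a, not_eventually.2 ((imm_iff_sbm.1 hs).freq hu (not_eventually.1 b)),
    hu.cont.eventually c⟩

theorem Har.freq {N D : Set X} {ζ : X → ℂ} (h : Har n N) (hζ : LEq n D x ζ) (hx : x ∈ D) :
    x ∈ closure (D \ N) := by
  by_contra c
  obtain ⟨U, a1, a2, a3⟩ := eventually_nhds_iff.1 ((hζ.near.and hζ.1).and
    (not_frequently.1 (mt mem_closure_iff_frequently.2 c)))
  have h0 : ∀ y ∈ U, y ∉ N → ζ y ≠ 0 := fun y b1 b2 b3 => (a1 y b1).2 ⟨(a1 y b1).1.2.1 b3, b2⟩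
  obtain ⟨s', b1, b2⟩ := h.ext U (fun y => (ζ y)⁻¹) a2 fun y b1 b2 =>
    (a1 y b1).1.1.hol.inv (h0 y b1 b2)
  have k := tendsto_nhds_unique_of_frequently_eq ((b1 x a3).mul hζ.hol).cont
    (tendsto_const_nhds (x := (1 : ℂ))) (((mem_closure_iff_frequently.1 (h.dense x)).and_eventually
      (a2.mem_nhds a3)).mono fun y k => by rw [b2 y k.2 k.1, inv_mul_cancel₀ (h0 y k.2 k.1)])
  simp [hζ.mem.2 hx] at k

variable {κ κ₁ : Type} [Fintype κ] [Fintype κ₁] {G : κ → Set X} {δ : κ → ℚ} {G₁ : κ₁ → Set X₁}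
  {δ₁ : κ₁ → ℚ}

theorem ten_of {c : κ → ℝ} (h : SecP n n id O ((Bd.can n X).pow m) G c s) : Ten m (O ∩ off G) s :=
  ⟨fun e y a b => h.hol e y b.1 a b.2, fun e e' y a a' b => h.chg e e' y b.1 a a' b.2⟩

theorem sec_pull (hJ : JAC) (hu : HolM n n u) (hG : Snc n G) (hG₁ : Snc n G₁) (hδ : ∀ l, δ l ≤ 1)
    (hL : LogM n u G δ G₁ δ₁)
    (h : SecP n n id univ ((Bd.can n X).pow m) G (fun l => m * (δ l : ℝ)) s) :
    SecP n n id univ ((Bd.can n X₁).pow m) G₁ (fun l => m * (δ₁ l : ℝ)) (pb u m s) := by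
  have h1 := univ_inter (off G) ▸ ten_of h
  have h2 := h1.pb (O₁ := off G₁) (snc_open_off hG) fun y k => ⟨hL.sub y k, hu.at y⟩
  refine ⟨fun e y _ => h2.hol e y, fun e e' y _ => h2.chg e e' y, fun e₁ y _ he ζ₁ hζ₁ => ?_⟩
  have hc := at_chart (n := n) (u y)
  refine (lb_one.1 (pull_bd
    (T := fun v => ‖s (chartAt (Cm n) (u y)) ((chartAt (Cm n) (u y)).symm v)‖) hJ hu hG hG₁ hδ hL (anV_chart hc) (gn_off hG _) Subset.rfl (gn_off hG₁ y)
    Subset.rfl hL.sub ((at_near hc).mono (h1.hol _)) (gen_val (f := fun x => x) continuousAt_id hc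
      (snc_dense_off hG) (h1.hol _)) (ca_of hc) (fun ζ hζ => lb_one.2 fun I =>
        Bnd.mul (h.bd _ _ trivial hc ζ hζ) (bnd_cont ((hol_mn (ca_of hc) (anV_chart hc) I).cont.norm.pow m))
          (fun _ => by positivity) fun _ => pow_nonneg (norm_nonneg _) m) (ca_of he) hζ₁) id).mono
    ((pb_ev h1 (hu.at y) he hc).mono fun z k hz => ⟨hz, le_of_eq ?_⟩)
  rw [k (hL.sub z hz), norm_mul, norm_pow, mul_right_comm]
  rfl

theorem sec_push (hu : WM n u) (hN : Har n (u '' {x | ¬ Imm n n u x})) (hG : Snc n G)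
    (hG₁ : Snc n G₁) (hL : LogM n u G δ G₁ δ₁) {s : Fin (j + 1) → Chart n X₁ → X₁ → ℂ}
    (h : ∀ b, SecP n n id {y | Imm n n u y} ((Bd.can n X₁).pow m) G₁ (fun l => m * (δ₁ l : ℝ)) (s b))
    (hr : Rk n ({y | Imm n n u y} ∩ off G₁) ((Bd.can n X₁).pow m) s) :
    KapM n n id (Bd.can n X) G (fun l => δ l) m j := by
  choose v hv using hu.surj
  set N := u '' {x | ¬ Imm n n u x}
  have v1 : ∀ x ∉ N, Imm n n u (v x) := fun x k => by_contra fun c => k ⟨_, c, hv x⟩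
  have v2 : ∀ x ∉ N, HolA n n v x ∧ Imm n n v x := fun x k => by
    obtain ⟨g, -, g2, g3, -, g5⟩ := (v1 x k).inv (hu.hol.at _)
    rw [hv] at g2 g3 g5
    have e : ∀ᶠ z in 𝓝 x, g z = v z := by
      filter_upwards [g5, hN.closed.isOpen_compl.mem_nhds k] with z a b using
        hu.one _ _ (v1 z b) (a.trans (hv z).symm)
    exact ⟨g2.cng e, g3.cng e⟩
  have v3 : ∀ y, Imm n n u y → u y ∉ N ∧ v (u y) = y := fun y k =>
    ⟨fun ⟨_, a, b⟩ => a (hu.one _ _ k b ▸ k), hu.one _ _ k (hv _)⟩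
  let S : Set X := Nᶜ ∩ v ⁻¹' off G₁
  have hO : IsOpen ({y | Imm n n u y} ∩ off G₁) :=
    (isOpen_iff_mem_nhds.2 fun y k => Imm.near k (hu.hol.at y)).inter (snc_open_off hG₁)
  have s1 : Dense S := (hu.dense_img (snc_open_off hG₁) (snc_dense_off hG₁)).mono
    (by rintro _ ⟨y, a, rfl⟩; exact ⟨(v3 y a.1).1, ((v3 y a.1).2.symm ▸ a.2 : v (u y) ∈ off G₁)⟩)
  have s2 := fun x => mem_closure_iff_frequently.1 (s1 x)
  have t1 := fun b => (ten_of (h b)).pb (O₁ := S) hO fun x k => ⟨⟨v1 x k.1, k.2⟩, (v2 x k.1).1⟩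
  have t2 : ∀ b e x, At e x → x ∉ N → ∀ ζ : κ → X → ℂ, (∀ l, LEq n (G l) x (ζ l)) →
      Bnd S (fun y => ‖pb v m (s b) e y‖ * ∏ l, ‖ζ l y‖ ^ (m * (δ l : ℝ))) x := by
    intro b e x he k ζ hζ
    obtain ⟨ξ, hξ, -⟩ := hG₁ (v x)
    have hc := at_chart (n := n) (v x)
    obtain ⟨C, c1, c2⟩ := hL.iso _ (v1 x k) ζ ξ ((hv x).symm ▸ hζ) hξ
    have k1 : Bnd (off G₁) _ (v x) := (h b).bd _ _ (v1 x k) hc ξ hξ
    simp only [prod_exp] at k1 ⊢
    refine (((k1.cpb (fun _ => norm_nonneg _) (fun _ => by positivity) c1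
      ((eventually_inf_principal.1 c2).mono fun y a b => (a b).1)).comp (v2 x k).1.cont).mul
      (bnd_cont ((hol_mn (ca_of he) ((v2 x k).1.anV hc) id).cont.norm.pow m)) (fun _ => by positivity)
      fun _ => pow_nonneg (norm_nonneg _) m).mono ((pb_ev (ten_of (h b)) (v2 x k).1 he hc).mono
        fun z a hz => ⟨hz.2, le_of_eq ?_⟩)
    rw [a ⟨v1 z hz.1, hz.2⟩, norm_mul, norm_pow, mul_right_comm, hv]
    rfl
  have t3 : ∀ b e x, At e x → x ∈ S → ext S (pb v m (s b) e) x = pb v m (s b) e x :=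
    fun b e x he k => ext_eq (s2 x) ((t1 b).hol e x he k).cont (.of_forall fun _ _ => rfl)
  have t4 : ∀ b e x, At e x → x ∈ off G → Hol n (ext S (pb v m (s b) e)) x := by
    intro b e x he k
    obtain ⟨s', a1, a2⟩ := hN.ext ({x | At e x} ∩ off G) (ext S (pb v m (s b) e))
      ((isLB_can.isOpen e).inter (snc_open_off hG)) fun y a c => by
        obtain ⟨ζ, hζ, -⟩ := hG y
        obtain ⟨H, b1, b2⟩ := riem (S := S) (((gn_off hG₁ _).pre (v2 y c).2 (v2 y c).1).mono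
          ((hN.closed.isOpen_compl.eventually_mem c).mono fun _ d1 d2 => ⟨d1, d2⟩))
          ((at_near a.1).mono ((t1 b).hol e)) (by
            simpa using (t2 b e y a.1 c ζ hζ).wt (c' := fun _ => 0) (fun _ => norm_nonneg _)
              (fun l => (hζ l).hol.cont) ((ne_off hζ).mono fun z d1 d2 => d1 (hv z ▸ hL.sub _ d2.2))
              fun l => .inl (mt (hζ l).mem.1 (a.2 l)))
        exact b1.congr (ext_ev (.of_forall s2) b1 b2)
    refine (a1 x ⟨he, k⟩).congr (ext_ev (.of_forall s2) (a1 x ⟨he, k⟩) ?_)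
    filter_upwards [at_near he, (snc_open_off hG).mem_nhds k] with y b1 b2 b3 using
      (a2 y ⟨b1, b2⟩ b3.1).trans (t3 b e y b1 b3)
  have hL' := lb_pow (isLB_can (n := n) (W := X)) m
  obtain ⟨y, ⟨y1, y2⟩, y3⟩ := hr
  refine ⟨fun b e => ext S (pb v m (s b) e), fun b => secP_codim1 hG hL' isOpen_univ (S := N)
    (fun l x _ k _ => (hG x).elim fun ζ a => hN.freq (a.1 l) k) (fun e x _ => t4 b e x)
    (fun e e' x _ he he' k => tendsto_nhds_unique_of_frequently_eq (t4 b e x he k).cont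
      ((lb_hol hL' he he').mul (t4 b e' x he' k)).cont (((s2 x).and_eventually
        ((at_near he).and (at_near he'))).mono fun z a => ?_)) fun e x _ he k ζ hζ => ?_,
    u y, hL.sub y y2, ?_⟩
  · rw [t3 b e z a.2.1 a.1, t3 b e' z a.2.2 a.1]
    exact (t1 b).chg e e' z a.2.1 a.2.2 a.1
  · refine Bnd.dense (S := S) ((t2 b e x he k ζ hζ).mono ((at_near he).mono fun z a hz =>
      ⟨hz, by rw [← t3 b e z a hz]; rfl⟩)) s1 ?_
    filter_upwards [at_near he, eventually_all.2 fun l => (hζ l).near] with z a1 a2 a3 using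
      (t4 b e z a1 a3).cont.norm.mul (tendsto_finsetProd _ fun l _ => (a2 l).hol.cont.norm.rpow_const
        (.inl (norm_ne_zero_iff.2 (mt (a2 l).mem.1 (a3 l)))))
  · obtain ⟨a1, a2⟩ := v3 y y1
    have a3 : {y | Imm n n u y} ∩ off G₁ ∈ 𝓝 (v (u y)) := hO.mem_nhds (a2.symm ▸ ⟨y1, y2⟩)
    obtain ⟨a, b1, b2, b3⟩ := rk_pb (fun b => ten_of (h b)) a3 (v2 _ a1).1 (v2 _ a1).2
      (by rw [a2]; exact y3)
    refine rkAt_of (L := (Bd.can n X).pow m) (L' := (Bd.can n X).pow m) (s := fun b => pb v m (s b))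
      (s' := fun b e => ext S (pb v m (s b) e)) (a := a) (a' := a) b2 b3 b1 (w := fun _ => 1) ?_
    filter_upwards [at_near b1, hN.closed.isOpen_compl.mem_nhds a1, (v2 _ a1).1.cont.eventually a3]
      with z c1 c2 c3 using ⟨one_ne_zero, fun b => (t3 b a z c1 ⟨c2, c3.2⟩).trans (one_mul _).symm⟩

theorem bir_of (h1 : EXC) (h2 : JAC) : BIR := by
  intro n V V₁ u κ κ₁ _ _ G δ G₁ δ₁ hu hG hG₁ hδ hL m j
  refine ⟨fun ⟨s, a, b⟩ => ⟨_, fun k => sec_pull h2 hu.hol hG hG₁ (fun l => (hδ l).2) hL (a k),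
    rk_pull hu (fun k => univ_inter (off G) ▸ ten_of (a k)) (snc_open_off hG) (snc_open_off hG₁)
      (snc_dense_off hG₁) b⟩, fun ⟨s, a, b⟩ => ?_⟩
  obtain ⟨y, c⟩ := b.move (.of_snc hG₁) continuous_id (lb_pow isLB_can m) (a 0) hu.dense
  exact sec_push hu (h1 n V V₁ u hu) hG hG₁ hL (fun k => (a k).res (subset_univ _))
    ⟨y, ⟨c.1, c.2.1⟩, c.2.2⟩

end Vale.Agent.P281Z.Md
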