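import Vale.Agent.P281Z.Md.Defs
import Vale.Agent.P281Z.Mf.Fib

/-!
# P281Z, block MODEL: the fibres of a log model
-/

open scoped Manifold ContDiff Topology
open Set Filter Function
open Vale.Agent.P272.K Vale.Agent.P285.H281.FD
open Vale.Agent.P277Z (Hol at_chart)
open Vale.Agent.P277Z.Slc (Ind LEq Snc)
open Vale.Agent.P277Z.Hir (Cpb)

noncomputable section

namespace Vale.Agent.P281Z.Md

namespace FibmH

theorem cpb_trans {T : Type} {l : Filter T} {f g h : T → ℝ} (a : Cpb l f g) (b : Cpb l g h) :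
    Cpb l f h := by
  obtain ⟨C, hC, a⟩ := a
  obtain ⟨D, hD, b⟩ := b
  refine ⟨C * D, mul_pos hC hD, ?_⟩
  filter_upwards [a, b] with z a b
  exact ⟨a.1.trans (by rw [mul_assoc]; exact mul_le_mul_of_nonneg_left b.1 hC.le),
    b.2.trans (by rw [mul_comm C, mul_assoc]; exact mul_le_mul_of_nonneg_left a.2 hD.le)⟩

theorem cpb_leq {n : ℕ} {X T κ : Type} [TopologicalSpace X] [ChartedSpace (Cm n) X]
    [IsManifold 𝓘(ℂ, Cm n) ω X] [Fintype κ] {G : κ → Set X} {l : Filter T} {j : T → X} {x : X}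
    (hj : Tendsto j l (𝓝 x)) (c : κ → ℝ) {ζ ζ' : κ → X → ℂ} (h : ∀ k, LEq n (G k) x (ζ k))
    (h' : ∀ k, LEq n (G k) x (ζ' k)) :
    Cpb l (fun t => ∏ k, ‖ζ k (j t)‖ ^ c k) fun t => ∏ k, ‖ζ' k (j t)‖ ^ c k := by
  choose u h1 h2 h3 using fun k => leq_unit (h k) (h' k)
  have hA : Tendsto (fun t => ∏ k, ‖u k (j t)‖ ^ c k) l (𝓝 (∏ k, ‖u k x‖ ^ c k)) :=
    tendsto_finsetProd _ fun k _ =>
      (((h1 k).cont.tendsto.comp hj).norm).rpow_const (.inl (norm_ne_zero_iff.2 (h2 k)))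
  have h0 : 0 < ∏ k, ‖u k x‖ ^ c k :=
    Finset.prod_pos fun k _ => Real.rpow_pos_of_pos (norm_pos_iff.2 (h2 k)) _
  generalize ∏ k, ‖u k x‖ ^ c k = A at hA h0
  refine ⟨2 * A + 2 / A, by positivity, ?_⟩
  filter_upwards [hA.eventually_const_lt (half_lt_self h0),
    hA.eventually_lt_const (lt_two_mul_self h0), hj.eventually (eventually_all.2 h3)] with t a b e
  have hP : 0 ≤ ∏ k, ‖ζ k (j t)‖ ^ c k := by positivity
  simp only [e, norm_mul, Real.mul_rpow (norm_nonneg _) (norm_nonneg _), Finset.prod_mul_distrib]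
  generalize ∏ k, ‖u k (j t)‖ ^ c k = B at a b
  have k1 : 1 ≤ (2 * A + 2 / A) * B := by
    have : 2 / A * (A / 2) = 1 := by field_simp
    nlinarith [div_pos two_pos h0]
  exact ⟨by rw [← mul_assoc]; exact le_mul_of_one_le_left hP k1,
    mul_le_mul_of_nonneg_right (by linarith [div_pos two_pos h0]) hP⟩

theorem keyM (h1 : BIR) {n p d : ℕ} {M₁ M : Fb n p} {u : M₁.X.X → M.X.X} {v : M₁.Y.X → M.Y.X}
    (hM : M.Ok) (hM₁ : M₁.Ok) (h : M₁.Sq M u v) {B : Set M.Y.X} (hv : Modif p v B) {y : M₁.Y.X}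
    (hy : v y ∉ B) (r : RegAt n p M.f M.G (v y)) (r₁ : RegAt n p M₁.f M₁.G y) {F F₁ : Mf d}
    {i : F.X → M.X.X} {i₁ : F₁.X → M₁.X.X} (hi : Emb d n i (M.f ⁻¹' {v y}))
    (hi₁ : Emb d n i₁ (M₁.f ⁻¹' {y})) (m a : ℕ) :
    KapM d n i (Bd.can d F.X) M.G (fun l => M.δ l) m a ↔
      KapM d n i₁ (Bd.can d F₁.X) M₁.G (fun l => M₁.δ l) m a := by
  obtain ⟨B', hu⟩ := h.mu
  have hf := hM.fibn.hol
  have hf₁ := hM₁.fibn.hol
  obtain ⟨w, hw, e⟩ := hi.lift (hu.hol.comp hi₁.hol) fun z => by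
    rw [mem_preimage, h.comm, hi₁.fib]; rfl
  have e' : (fun z => i (w z)) = fun z => u (i₁ z) := funext e
  have im : ∀ x, Imm d d w x ↔ Imm n n u (i₁ x) := fun x => by
    refine ⟨fun k => hi₁.fib_imm hf₁ (r₁.sbm hf₁ hM₁.snc (hi₁.fib x)) (hu.hol.at _)
      (e' ▸ Imm.comp (hi.hol.at _) (hw.at x) (hi.imm _) k) fun c c' c'' a1 a2 a3 t ht => ?_,
      fun k => Imm.of_comp (hi.hol.at _) (hw.at x)
        (e' ▸ Imm.comp (hu.hol.at _) (hi₁.hol.at x) k (hi₁.imm x))⟩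
    obtain ⟨c₄, a4⟩ : ∃ c₄ : Chart p M.Y.X, At c₄ (v (M₁.f (i₁ x))) := ⟨_, at_chart _⟩
    refine (hv.imm (by rwa [hi₁.fib]) c' _ a2 a4) ?_
    have k1 := df_comp (hv.hol.at _) (hf₁.at _) a1 a2 a4
    have k2 := df_comp (hf.at _) (hu.hol.at _) a1 a3 (e'' := c₄) (by rwa [h.comm])
    rw [funext h.comm, k1] at k2
    simpa [ht] using DFunLike.congr_fun k2 t
  have s := r.snc hf hM.snc hi
  have s₁ := r₁.snc hf₁ hM₁.snc hi₁
  have wm : WM d w := ⟨hw, fun z => by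
      obtain ⟨x, hx⟩ := hu.surj (i z)
      obtain ⟨t, rfl⟩ := hi₁.ex (y := x) (hv.inj hy (by rw [← h.comm, hx, hi.fib]))
      exact ⟨t, hi.inj ((e t).trans hx)⟩,
    Dense.mono (fun x hx => (im x).2 (by_contra fun k =>
      let ⟨l, _, hl⟩ := h.log.exc _ k; (hx : x ∈ off fun l => i₁ ⁻¹' M₁.G l) l hl))
      (snc_dense_off s₁),
    fun x x' k k' => hi₁.inj (hu.inj_imm ((im x).1 k) (by rw [← e, ← e, k']))⟩
  have lg : LogM d w (fun l => i ⁻¹' M.G l) M.δ (fun l => i₁ ⁻¹' M₁.G l) M₁.δ := by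
    refine ⟨fun x hx l hl => h.log.sub (i₁ x) hx l (e x ▸ hl), fun x k =>
      h.log.exc _ (mt (im x).2 k), fun x k ζ ζ₁ a a₁ => ?_⟩
    obtain ⟨ξ, b, -⟩ := hM.snc (i (w x))
    obtain ⟨ξ₁, b₁, -⟩ := hM₁.snc (i₁ x)
    obtain ⟨C, hC, k⟩ := h.log.iso _ ((im x).1 k) ξ ξ₁ (e x ▸ b) b₁
    have t : Tendsto i₁ (𝓝 x ⊓ 𝓟 (off fun l => i₁ ⁻¹' M₁.G l)) (𝓝 (i₁ x) ⊓ 𝓟 (off M₁.G)) :=
      (hi₁.hol.cont.tendsto x).inf (tendsto_principal_principal.2 fun _ k => k)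
    refine cpb_trans (cpb_leq ((hw.cont.tendsto x).mono_left inf_le_left) _ a (r.leq hf hi b))
      (cpb_trans ⟨C, hC, ?_⟩ (cpb_leq (j := id) inf_le_left _ (r₁.leq hf₁ hi₁ b₁) a₁))
    simpa only [e, id] using t.eventually k
  rw [r.kapM hf hM.snc hi, r₁.kapM hf₁ hM₁.snc hi₁]
  exact h1 d F F₁ w _ _ _ _ _ _ wm s s₁ hM.bdry lg m a

/-- transfer of a property of the fibres -/
theorem oft (h2 : REM) (h3 : GEN) {n p d : ℕ} {M₁ M : Fb n p} {u : M₁.X.X → M.X.X}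
    {v : M₁.Y.X → M.Y.X} (hM : M.Ok) (hM₁ : M₁.Ok) (h : M₁.Sq M u v)
    {P : ∀ F : Mf d, (F.X → M.X.X) → Prop} {P₁ : ∀ F : Mf d, (F.X → M₁.X.X) → Prop}
    (key : ∀ B, Modif p v B → ∀ y, v y ∉ B → RegAt n p M.f M.G (v y) → RegAt n p M₁.f M₁.G y →
      ∀ F F₁ i i₁, Emb d n i (M.f ⁻¹' {v y}) → Emb d n i₁ (M₁.f ⁻¹' {y}) → (P F i ↔ P₁ F₁ i₁)) :
    Oft n p M.f d P ↔ Oft n p M₁.f d P₁ := by
  obtain ⟨B, hv⟩ := h.mv
  have hf := hM.fibn.hol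
  have hf₁ := hM₁.fibn.hol
  obtain ⟨Q, hQ, r⟩ := h3 n p M.X M.Y M.f _ M.G hf hM.snc
  obtain ⟨Q₁, hQ₁, r₁⟩ := h3 n p M₁.X M₁.Y M₁.f _ M₁.G hf₁ hM₁.snc
  have hS := (hv.pre_thin (hv.thin.union hQ)).neg.union hQ₁.neg
  refine not_congr ((hv.neg_iff h2).symm.trans ⟨fun k => (k.union hS).mono fun y ⟨F, i, hi, hk⟩ =>
    or_iff_not_imp_right.2 fun hy => ?_, fun k => (k.union hS).mono fun y ⟨F, i, hi, hk⟩ =>
      or_iff_not_imp_right.2 fun hy => ?_⟩)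
  all_goals simp only [mem_union, mem_preimage, not_or] at hy
  · obtain ⟨x, hx⟩ := hM₁.fibn.surj y
    obtain ⟨t, -⟩ := hi.ex (y := x) hx
    obtain ⟨F', i', hi', -⟩ := (r _ hy.1.2).fib ((r₁ y hy.2).dim hf₁ hM₁.snc hi t) hf hM.snc
    exact ⟨F', i', hi', (key B hv y hy.1.1 (r _ hy.1.2) (r₁ y hy.2) _ _ _ _ hi' hi).2 hk⟩
  · obtain ⟨x, hx⟩ := hM.fibn.surj (v y)
    obtain ⟨t, -⟩ := hi.ex (y := x) hx
    obtain ⟨F', i', hi', -⟩ := (r₁ y hy.2).fib ((r _ hy.1.2).dim hf hM.snc hi t) hf₁ hM₁.snc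
    exact ⟨F', i', hi', (key B hv y hy.1.1 (r _ hy.1.2) (r₁ y hy.2) _ _ _ _ hi hi').1 hk⟩

end FibmH

open FibmH

theorem fibm_of (h1 : BIR) (h2 : REM) (h3 : GEN) : FIBM := fun _ _ _ _ _ _ hM hM₁ h _ a =>
  oft h2 h3 hM hM₁ h fun _ hv _ hy r r₁ _ _ _ _ hi hi₁ =>
    exists_congr fun m => and_congr_right fun _ => keyM h1 hM hM₁ h hv hy r r₁ hi hi₁ m a

/-- the same for a fixed weight -/
theorem fibM_of (h1 : BIR) (h2 : REM) (h3 : GEN) {n p : ℕ} {M₁ M : Fb n p} {u : M₁.X.X → M.X.X}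
    {v : M₁.Y.X → M.Y.X} (hM : M.Ok) (hM₁ : M₁.Ok) (h : M₁.Sq M u v) (m d a : ℕ) :
    (Oft n p M.f d fun F i => KapM d n i (Bd.can d F.X) M.G (fun l => M.δ l) m a) ↔
      Oft n p M₁.f d fun F i => KapM d n i (Bd.can d F.X) M₁.G (fun l => M₁.δ l) m a :=
  oft h2 h3 hM hM₁ h fun _ hv _ hy r r₁ _ _ _ _ hi hi₁ => keyM h1 hM hM₁ h hv hy r r₁ hi hi₁ m a

end Vale.Agent.P281Z.Md
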