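import Vale.Agent.P281Z.Md.Tau
import Vale.Agent.P281Z.Md.Exc
import Vale.Agent.P281Z.Md.Jac
import Vale.Agent.P281Z.Md.Fibm

/-!
# P281Z, block MODEL: the assembly
-/

namespace Vale.Agent.P281Z.Md

theorem bir : BIR := bir_of exc jac

theorem tau : TAU := tau_of jac

/-- **MODEL** -/
theorem model (h1 : REM) (h2 : GEN) : MODEL := model_of bir tau (fibm_of bir h1 h2)

end Vale.Agent.P281Z.Md
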