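import Vale.Agent.P281Z.Md.Ext
import Vale.Agent.P281Z.Mf.Fib
import Vale.Agent.P277Z.Lbd.Can

/-!
# P281Z, block MODEL: minors in adapted coordinates, weights, the chain rule
-/

open scoped Manifold ContDiff Topology
open Set Filter Function
open Vale.Agent.P272.K Vale.Agent.P285.H281.FD
open Vale.Agent.P277Z
open Vale.Agent.P277Z.Slc (Ind LEq Snc dd)

set_option linter.unusedSectionVars false

noncomputable section

namespace Vale.Agent.P281Z.Md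

theorem an_mnr {ι : Type} [Fintype ι] [DecidableEq ι] {p : ℕ} {F : (ι → ℂ) → Cm p} {z : ι → ℂ}
    (h : AnalyticAt ℂ F z) (I : Fin p → ι) : AnalyticAt ℂ (mnr F I) z := by
  unfold mnr
  simp only [Matrix.det_apply', Matrix.of_apply]
  exact Finset.analyticAt_fun_sum _ fun σ _ => analyticAt_const.fun_mul
    (Finset.analyticAt_fun_prod _ fun i _ => analyticAt_pi_iff.1
      ((ContinuousLinearMap.apply ℂ _ (Pi.single (I i) 1)).analyticAt _ |>.fun_comp h.fderiv) _)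

theorem det_exp {ι : Type} [Fintype ι] {p : ℕ} (A : Fin p → ι → ℂ) (N : ι → Cm p) :
    (Matrix.of fun a b : Fin p => ∑ i, A b i * N i a).det =
      ∑ I : Fin p → ι, (∏ b, A b (I b)) * (Matrix.of fun a b => N (I b) a).det := by
  classical
  have h := (Matrix.detRowAlternating (n := Fin p) (R := ℂ)).toMultilinearMap.map_sum
    fun b i => A b i • N i
  rw [← Matrix.det_transpose]
  refine Eq.trans (congrArg Matrix.det ?_) (h.trans (Finset.sum_congr rfl fun I _ => ?_))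
  · ext b a
    simp
  · rw [MultilinearMap.map_smul_univ, ← Matrix.det_transpose]
    rfl

theorem pow_sum_le {ι : Type} [Fintype ι] [Nonempty ι] (a : ι → ℝ) (h : ∀ i, 0 ≤ a i) (m : ℕ) :
    (∑ i, a i) ^ m ≤ (Fintype.card ι : ℝ) ^ m * ∑ i, a i ^ m := by
  obtain ⟨j, hj⟩ := Finite.exists_max a
  have h1 : ∑ i, a i ≤ Fintype.card ι * a j := by
    simpa using Finset.sum_le_card_nsmul Finset.univ a _ fun i _ => hj i
  refine (pow_le_pow_left₀ (Finset.sum_nonneg fun i _ => h i) h1 m).trans ?_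
  rw [mul_pow]
  exact mul_le_mul_of_nonneg_left (Finset.single_le_sum (f := fun i => a i ^ m)
    (fun i _ => pow_nonneg (h i) m) (Finset.mem_univ j)) (by positivity)

variable {n p q : ℕ} {X X₁ : Type} [TopologicalSpace X] [ChartedSpace (Cm n) X]
  [TopologicalSpace X₁] [ChartedSpace (Cm q) X₁] {E : Type} [NormedAddCommGroup E] [NormedSpace ℂ E]
  {Θ : Chart n X} {Θ₁ : Chart q X₁} {x : X} {x₁ : X₁} {u : X₁ → X} {S : Set X} {S₁ : Set X₁}

/-- `Θ` is a system of holomorphic coordinates near `x` -/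
def Ca (Θ : Chart n X) (x : X) : Prop := Co n Θ ∧ x ∈ Θ.source

/-- the differential in the coordinates `Θ` -/
def dv (F : X → E) (Θ : Chart n X) (x : X) : Cm n →L[ℂ] E :=
  fderiv ℂ (fun z => F (Θ.symm z)) (Θ x)

/-- a minor in the coordinates `Θ` -/
def mn (F : X → Cm p) (Θ : Chart n X) (I : Fin p → Fin n) (x : X) : ℂ :=
  mnr (fun z => F (Θ.symm z)) I (Θ x)

/-- the weighted minors are bounded -/
def LB (S : Set X) (t : X → ℝ) (F : X → Cm p) (Θ : Chart n X) (w : Fin n → X → ℂ) (m : ℕ) (x : X) :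
    Prop :=
  ∀ I, Bnd S (fun y => t y * ‖(∏ b, w (I b) y) * mn F Θ I y‖ ^ m) x

theorem Ca.near (h : Ca Θ x) : ∀ᶠ y in 𝓝 x, Ca Θ y :=
  (Θ.open_source.eventually_mem h.2).mono fun _ k => ⟨h.1, k⟩

theorem Ca.anV (h : Ca Θ x) : AnV n Θ x := h.1.an x h.2

theorem Ca.ev (h : Ca Θ x) {P : X → Prop} (k : ∀ᶠ y in 𝓝 x, P y) :
    ∀ᶠ z in 𝓝 (Θ x), P (Θ.symm z) := (Θ.tendsto_symm h.2).eventually k

theorem dv_congr {F F' : X → E} (h : Ca Θ x) (k : ∀ᶠ y in 𝓝 x, F y = F' y) :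
    dv F Θ x = dv F' Θ x := EventuallyEq.fderiv_eq (h.ev k)

theorem mn_congr {F F' : X → Cm p} (h : Ca Θ x) (k : ∀ᶠ y in 𝓝 x, F y = F' y) (I : Fin p → Fin n) :
    mn F Θ I x = mn F' Θ I x :=
  congrArg (fun L : Cm n →L[ℂ] Cm p => (Matrix.of fun a b => L (Pi.single (I b) 1) a).det)
    (dv_congr h k)

theorem mn_zero (F : X → Cm p) {I : Fin p → Fin n} (h : ¬ Injective I) : mn F Θ I x = 0 := by
  obtain ⟨a, b, h1, h2⟩ := not_injective_iff.1 h
  exact Matrix.det_zero_of_column_eq h2 fun k => by simp [h1]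

theorem LB.near {t : X → ℝ} {F : X → Cm p} {w : Fin n → X → ℂ} {m : ℕ} (h : LB S t F Θ w m x) :
    ∀ᶠ y in 𝓝 x, LB S t F Θ w m y := eventually_all.2 fun I => (h I).near

theorem lb_one {t : X → ℝ} {F : X → Cm p} {m : ℕ} : LB S t F Θ (fun _ _ => 1) m x ↔
    ∀ I, Bnd S (fun y => t y * ‖mn F Θ I y‖ ^ m) x := by simp [LB]

variable [IsManifold 𝓘(ℂ, Cm n) ω X] [IsManifold 𝓘(ℂ, Cm q) ω X₁]

theorem ca_of (h : At Θ x) : Ca Θ x := ⟨co_chart h.1, h.2⟩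

theorem Ca.an {F : X → E} (h : Ca Θ x) (hF : AnV n F x) :
    AnalyticAt ℂ (fun z => F (Θ.symm z)) (Θ x) := by
  have he := at_chart (n := n) x
  have h0 := Θ.left_inv h.2
  refine (AnalyticAt.fun_comp (f := fun w => chartAt (Cm n) x (Θ.symm w)) (by rw [h0]; exact hF _ he)
    (h.1.inv _ (Θ.map_source h.2) _ (h0.symm ▸ he))).congr ?_
  filter_upwards [h.ev (at_near he)] with w hw
  rw [hw.left_inv]

theorem anV_comp {F : X → E} (hu : HolA q n u x₁) (hF : AnV n F (u x₁)) :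
    AnV q (fun y => F (u y)) x₁ := fun e he => by
  have he' := at_chart (n := n) (u x₁)
  refine (AnalyticAt.fun_comp (f := fun z => chartAt (Cm n) (u x₁) (u (e.symm z)))
    (by rw [he.left_inv]; exact hF _ he') (hu.an he he')).congr ?_
  filter_upwards [at_map hu.cont he he'] with z hz
  rw [hz.left_inv]

theorem anV_near {F : X → Cm p} (h : AnV n F x) : ∀ᶠ y in 𝓝 x, AnV n F y :=
  (eventually_all.2 fun a => (h.hol a).near).mono fun _ => AnV.pi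

theorem hol_mn {F : X → Cm p} (h : Ca Θ x) (hF : AnV n F x) (I : Fin p → Fin n) :
    Hol n (mn F Θ I) x := h.anV.cmp (an_mnr (h.an hF) I)

theorem dv_cont [CompleteSpace E] {F : X → E} (h : Ca Θ x) (hF : AnV n F x) : ContinuousAt (dv F Θ) x :=
  (h.anV.cmp (h.an hF).fderiv).cont

theorem dv_comp {F : X → E} (h₁ : Ca Θ₁ x₁) (h : Ca Θ (u x₁)) (hu : HolA q n u x₁)
    (hF : AnV n F (u x₁)) :
    dv (fun y => F (u y)) Θ₁ x₁ = (dv F Θ (u x₁)).comp (dv (fun y => Θ (u y)) Θ₁ x₁) := by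
  have h0 := Θ₁.left_inv h₁.2
  rw [dv_congr (F' := fun y => F (Θ.symm (Θ (u y)))) h₁
    ((hu.cont.eventually h.near).mono fun y k => by rw [Θ.left_inv k.2])]
  unfold dv
  rw [fderiv_fun_comp (g := fun z => F (Θ.symm z)) (f := fun z => Θ (u (Θ₁.symm z))) (Θ₁ x₁)
    (by rw [h0]; exact (h.an hF).differentiableAt)
    (h₁.an (anV_comp hu h.anV)).differentiableAt, h0]

theorem mn_comp {F : X → Cm p} (h₁ : Ca Θ₁ x₁) (h : Ca Θ (u x₁)) (hu : HolA q n u x₁)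
    (hF : AnV n F (u x₁)) (K : Fin p → Fin q) : mn (fun y => F (u y)) Θ₁ K x₁ =
      ∑ I : Fin p → Fin n, (∏ b, dv (fun y => Θ (u y)) Θ₁ x₁ (Pi.single (K b) 1) (I b)) *
        mn F Θ I (u x₁) := by
  refine Eq.trans (congrArg Matrix.det ?_) (det_exp _ fun i => dv F Θ (u x₁) (Pi.single i 1))
  ext a b
  refine (congrArg (fun L : Cm q →L[ℂ] Cm p => L (Pi.single (K b) 1) a) (dv_comp h₁ h hu hF)).trans ?_
  simp only [ContinuousLinearMap.comp_apply, Matrix.of_apply]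
  conv_lhs => rw [pi_eq_sum_univ' (dv (fun y => Θ (u y)) Θ₁ x₁ (Pi.single (K b) 1))]
  simp

/-- the bound is pulled back -/
theorem LB.comp {X₁ : Type} [TopologicalSpace X₁] [ChartedSpace (Cm n) X₁]
    [IsManifold 𝓘(ℂ, Cm n) ω X₁] {Θ₁ : Chart n X₁} {x₁ : X₁} {u : X₁ → X} {S₁ : Set X₁}
    {t : X → ℝ} {F : X → Cm p} {w : Fin n → X → ℂ} {w₁ : Fin n → X₁ → ℂ} {m : ℕ}
    (hb : LB S t F Θ w m (u x₁)) (h₁ : Ca Θ₁ x₁) (h : Ca Θ (u x₁)) (hu : HolA n n u x₁)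
    (hF : AnV n F (u x₁)) (ht : ∀ y, 0 ≤ t y) (hS : ∀ᶠ y in 𝓝 x₁, y ∈ S₁ → u y ∈ S)
    (hw : ∀ k i, ∃ B : ℝ, ∀ᶠ y in 𝓝 x₁, y ∈ S₁ →
      ‖w₁ k y * dv (fun y => Θ (u y)) Θ₁ y (Pi.single k 1) i‖ ≤ B * ‖w i (u y)‖) :
    LB S₁ (fun y => t (u y)) (fun y => F (u y)) Θ₁ w₁ m x₁ := fun K => by
  have : Nonempty (Fin p → Fin n) := ⟨K⟩
  choose B hB using hw
  have h1 := ((bnd_cont (S := u ⁻¹' S) (continuousAt_const
    (y := (Fintype.card (Fin p → Fin n) : ℝ) ^ m))).mul (Bnd.sum fun I : Fin p → Fin n =>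
      (bnd_cont (continuousAt_const (y := (∏ b, |B (K b) (I b)|) ^ m))).mul ((hb I).comp hu.cont)
        (fun _ => by positivity) fun y => mul_nonneg (ht _) (by positivity)) (fun _ => by positivity)
      fun y => Finset.sum_nonneg fun I _ => mul_nonneg (by positivity)
        (mul_nonneg (ht _) (by positivity)))
  refine h1.mono ?_
  filter_upwards [hS, eventually_all.2 fun k => eventually_all.2 (hB k), h₁.near,
    hu.cont.eventually h.near, hu.near, hu.cont.eventually (anV_near hF)] with y a1 a2 a3 a4 a5 a6 hy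
  refine ⟨a1 hy, ?_⟩
  have h2 : ‖(∏ b, w₁ (K b) y) * mn (fun y => F (u y)) Θ₁ K y‖ ≤ ∑ I : Fin p → Fin n,
      (∏ b, |B (K b) (I b)|) * ‖(∏ b, w (I b) (u y)) * mn F Θ I (u y)‖ := by
    rw [mn_comp a3 a4 a5 a6, Finset.mul_sum]
    refine norm_sum_le_of_le _ fun I _ => ?_
    rw [← mul_assoc, ← Finset.prod_mul_distrib, norm_mul, norm_mul, ← mul_assoc, norm_prod,
      norm_prod, ← Finset.prod_mul_distrib]
    exact mul_le_mul_of_nonneg_right (Finset.prod_le_prod (fun _ _ => norm_nonneg _) fun b _ =>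
      (a2 _ _ hy).trans (mul_le_mul_of_nonneg_right (le_abs_self _) (norm_nonneg _)))
      (norm_nonneg _)
  refine (mul_le_mul_of_nonneg_left ((pow_le_pow_left₀ (norm_nonneg _) h2 m).trans
    (pow_sum_le _ (fun _ => by positivity) m)) (ht _)).trans (le_of_eq ?_)
  simp only [Finset.mul_sum, mul_pow]
  exact Finset.sum_congr rfl fun I _ => by ring

theorem dv_bd (h₁ : Ca Θ₁ x₁) (h : Ca Θ (u x₁)) (hu : HolA q n u x₁) {w : X₁ → ℂ}
    (hw : ContinuousAt w x₁) (k : Fin q) (i : Fin n) : ∃ B : ℝ, ∀ᶠ y in 𝓝 x₁, y ∈ S₁ →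
      ‖w y * dv (fun y => Θ (u y)) Θ₁ y (Pi.single k 1) i‖ ≤ B * ‖(1 : ℂ)‖ := by
  simp only [norm_one, mul_one]
  exact bnd_cont (hw.mul ((continuous_apply i).continuousAt.comp
    ((dv_cont h₁ (anV_comp hu h.anV)).clm_apply continuousAt_const))).norm

theorem LB.comp1 {X₁ : Type} [TopologicalSpace X₁] [ChartedSpace (Cm n) X₁]
    [IsManifold 𝓘(ℂ, Cm n) ω X₁] {Θ₁ : Chart n X₁} {x₁ : X₁} {u : X₁ → X} {S₁ : Set X₁}
    {t : X → ℝ} {F : X → Cm p} {m : ℕ} (hb : LB S t F Θ (fun _ _ => 1) m (u x₁)) (h₁ : Ca Θ₁ x₁)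
    (h : Ca Θ (u x₁)) (hu : HolA n n u x₁) (hF : AnV n F (u x₁)) (ht : ∀ y, 0 ≤ t y)
    (hS : ∀ᶠ y in 𝓝 x₁, y ∈ S₁ → u y ∈ S) :
    LB S₁ (fun y => t (u y)) (fun y => F (u y)) Θ₁ (fun _ _ => 1) m x₁ :=
  hb.comp h₁ h hu hF ht hS (dv_bd h₁ h hu continuousAt_const)

theorem LB.chg {Θ' : Chart n X} {t : X → ℝ} {F : X → Cm p} {m : ℕ}
    (hb : LB S t F Θ (fun _ _ => 1) m x) (h' : Ca Θ' x) (h : Ca Θ x) (hF : AnV n F x)
    (ht : ∀ y, 0 ≤ t y) : LB S t F Θ' (fun _ _ => 1) m x :=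
  LB.comp1 (u := fun y => y) hb h' h (holM_id.at x) hF ht (.of_forall fun _ => id)

/-- adapted coordinates -/
theorem exists_ca {α : Type} [Fintype α] {h : α → X → ℂ} (hi : Ind n h x) :
    ∃ (Θ : Chart n X) (j : α → Fin n), Ca Θ x ∧ Injective j ∧
      ∀ y ∈ Θ.source, ∀ a, Θ y (j a) = h a y := by
  obtain ⟨d, hd⟩ := Nat.exists_eq_add_of_le (ind_le hi)
  obtain ⟨Θ, h1, h2, -, h4⟩ := exists_co hi hd.symm univ_mem
  let ε : α ⊕ Fin d ≃ Fin n := Fintype.equivOfCardEq (by simp [hd])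
  let L : ((α → ℂ) × Cm d) ≃L[ℂ] Cm n := (ContinuousLinearEquiv.sumPiEquivProdPi ℂ α (Fin d)
    fun _ => ℂ).symm.trans (ContinuousLinearEquiv.piCongrLeft ℂ (fun _ => ℂ) ε)
  refine ⟨Θ.transHomeomorph L.toHomeomorph, fun a => ε (.inl a), ⟨⟨fun y hy =>
    (h1.an y hy).cmp (L.analyticAt _), fun v hv e he => (h1.inv _ hv e he).fun_comp
      (L.symm.analyticAt v)⟩, h2⟩, ε.injective.comp Sum.inl_injective, fun y hy a => ?_⟩
  rw [← congrFun (h4 y hy) a]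
  exact Equiv.piCongrLeft_apply_apply (fun _ => ℂ) ε _ (.inl a)

theorem jac_eq {e e' : Chart n X} (he : At e x) (he' : At e' x) :
    (jacM e e' x).det = mn e' e id x := by
  have hd := (trans_an he' he).differentiableAt
  refine congrArg Matrix.det (Matrix.ext fun a b => ?_)
  rw [jacM, Matrix.of_apply, Lb.CanH.dz_hol (differentiableAt_pi.1 hd a), fderiv_apply hd a]
  rfl

/-- minors of a composition, the last map being between spaces of the same dimension -/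
theorem mn_left {Y : Type} [TopologicalSpace Y] [ChartedSpace (Cm p) Y]
    [IsManifold 𝓘(ℂ, Cm p) ω Y] {f : X → Y} {F : Y → Cm p} {Ξ : Chart p Y} (h : Ca Θ x)
    (h' : Ca Ξ (f x)) (hf : HolA n p f x) (hF : AnV p F (f x)) (I : Fin p → Fin n) :
    mn (fun y => F (f y)) Θ I x = mn F Ξ id (f x) * mn (fun y => Ξ (f y)) Θ I x := by
  refine Eq.trans (congrArg Matrix.det ?_) (Matrix.det_mul _ _)
  ext a b
  refine (congrArg (fun L : Cm n →L[ℂ] Cm p => L (Pi.single (I b) 1) a) (dv_comp h h' hf hF)).trans ?_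
  simp only [ContinuousLinearMap.comp_apply, Matrix.of_apply, Matrix.mul_apply]
  conv_lhs => rw [pi_eq_sum_univ' (dv (fun y => Ξ (f y)) Θ x (Pi.single (I b) 1))]
  simp [dv, mul_comm]

theorem mn_ne_iff {F : X → Cm n} : mn F Θ id x ≠ 0 ↔ Injective (dv F Θ x) := by
  have h : mn F Θ id x = LinearMap.det (dv F Θ x : Cm n →ₗ[ℂ] Cm n) := by
    rw [← LinearMap.det_toMatrix']
    rfl
  rw [h, ← isUnit_iff_ne_zero, ← LinearMap.isUnit_iff_isUnit_det, LinearMap.isUnit_iff_ker_eq_bot,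
    LinearMap.ker_eq_bot]
  rfl

/-! ### weights -/

theorem Bnd.wt {κ : Type} [Fintype κ] {ζ : κ → X → ℂ} {c c' : κ → ℝ} {t : X → ℝ}
    (h : Bnd S (fun y => t y * ∏ l, ‖ζ l y‖ ^ c l) x) (ht : ∀ y, 0 ≤ t y)
    (hζ : ∀ l, ContinuousAt (ζ l) x) (h0 : ∀ᶠ y in 𝓝 x, y ∈ S → ∀ l, ζ l y ≠ 0)
    (hc : ∀ l, ζ l x ≠ 0 ∨ c l ≤ c' l) : Bnd S (fun y => t y * ∏ l, ‖ζ l y‖ ^ c' l) x := by
  refine (h.mul (bnd_cont (F := fun y => ∏ l, ‖ζ l y‖ ^ (c' l - c l)) (tendsto_finsetProd _ fun l _ =>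
    (hζ l).norm.rpow_const ((hc l).imp norm_ne_zero_iff.2 sub_nonneg.2)))
    (fun y => mul_nonneg (ht y) (by positivity)) fun y => by positivity).mono
    (h0.mono fun y k hy => ⟨hy, le_of_eq ?_⟩)
  rw [mul_assoc, ← Finset.prod_mul_distrib]
  congr 1
  exact Finset.prod_congr rfl fun l _ => by
    rw [← Real.rpow_add (norm_pos_iff.2 (k hy l)), add_sub_cancel]

theorem prod_single {κ : Type} [Fintype κ] [DecidableEq κ] (a : κ → ℝ) (l : κ) (m : ℕ) :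
    ∏ k, a k ^ (Pi.single l (m : ℝ) : κ → ℝ) k = a l ^ m := by
  rw [Finset.prod_eq_single l (fun k _ h => by simp [h]) (by simp)]
  simp

theorem prod_const {κ : Type} [Fintype κ] (a : κ → ℂ) (m : ℕ) :
    ∏ k, ‖a k‖ ^ (m : ℝ) = ‖∏ k, a k‖ ^ m := by
  simp [Finset.prod_pow]

/-! ### the Nullstellensatz for hypersurfaces -/

theorem dvd_pow_of {a b : X → ℂ} (ha : Hol n a x) (h0 : Nz a x) (hb : Hol n b x)
    (h : ∀ᶠ y in 𝓝 x, a y = 0 → b y = 0) : ∃ k : ℕ, Dvd n a (fun y => b y ^ k) x := by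
  have he := at_chart (n := n) x
  have key : ∀ g : P298.H941.O (Cm n), g ≠ 0 → ∀ a, Hol n a x → gW (chartAt (Cm n) x) x a = g →
      (∀ᶠ y in 𝓝 x, a y = 0 → b y = 0) → ∃ k : ℕ, g ∣ gW (chartAt (Cm n) x) x b ^ k := by
    intro g
    induction g using UniqueFactorizationMonoid.induction_on_prime with
    | h₁ => exact fun c => absurd rfl c
    | h₂ g hg => exact fun _ _ _ _ _ => ⟨0, hg.dvd⟩
    | h₃ g π h1 h2 ih =>
      intro _ a ha k1 k2
      obtain ⟨g, hg, rfl⟩ := gW_surj he g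
      obtain ⟨π, hπ, rfl⟩ := gW_surj he π
      rw [← gW_mul he hπ hg, gW_eq_iff he ha (hπ.mul hg)] at k1
      obtain ⟨k, hk⟩ := ih h1 g hg rfl
        (by filter_upwards [k1, k2] with y c1 c2 c3 using c2 (by rw [c1, c3, mul_zero]))
      refine ⟨k + 1, ?_⟩
      rw [pow_succ']
      exact mul_dvd_mul ((gW_dvd he hπ hb).2 ((red_near he hπ h2.isRadical).self_of_nhds b hb
        (by filter_upwards [k1, k2] with y c1 c2 c3 using c2 (by rw [c1, c3, zero_mul])))) hk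
  obtain ⟨k, hk⟩ := key _ ((gW_ne_zero he ha).2 h0) a ha rfl h
  exact ⟨k, (gW_dvd he ha (hb.pow k)).1 (by rwa [gW_pow he hb])⟩

theorem unit_pow {D : Set X} {a ζ : X → ℂ} (hζ : LEq n D x ζ) (hx : x ∈ D) (ha : Hol n a x)
    (h : ∀ᶠ y in 𝓝 x, a y = 0 → ζ y = 0) :
    ∃ (r : ℕ) (g : X → ℂ), Hol n g x ∧ g x ≠ 0 ∧ ∀ᶠ y in 𝓝 x, a y = g y * ζ y ^ r := by
  have he := at_chart (n := n) x
  obtain ⟨k, hk⟩ := dvd_pow_of ha (fun c => leq_nz hζ ((c.and h).mono fun _ d => d.2 d.1)) hζ.hol h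
  rw [← gW_dvd he ha (hζ.hol.pow k), gW_pow he hζ.hol, dvd_prime_pow (leq_prime he hζ hx)] at hk
  obtain ⟨r, -, v, hv⟩ := hk.imp fun _ c => c.imp_right Associated.symm
  obtain ⟨g, hg, hv'⟩ := gW_surj he v
  rw [← hv', ← gW_pow he hζ.hol, ← gW_mul he (hζ.hol.pow r) hg,
    gW_eq_iff he ((hζ.hol.pow r).mul hg) ha] at hv
  exact ⟨r, g, hg, (isUnit_gW he hg).1 (hv' ▸ v.isUnit), hv.mono fun y c => by rw [← c, mul_comm]⟩

end Vale.Agent.P281Z.Md
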