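import Vale.Agent.P281Z.Md.All
import Vale.Agent.P281Z.Gt.Defs

/-!
# P281Z, block MODEL: the forms which are used for the fibres of log general type
-/

namespace Vale.Agent.P281Z.Md

theorem modk : Gt.MODK := fun n _ M₁ M u _ a b c _ ⟨N, h1, _, h2, h3⟩ =>
  c.mu.elim fun _ h => ⟨N, h1, sec_push (wm_of h) (exc n M.X M₁.X u (wm_of h)) a.snc b.snc c.log h2 h3⟩

theorem modm_of (h1 : REM) (h2 : GEN) : Gt.MODM := fun _ _ _ _ _ _ a b c m =>
  ⟨fun d k => (fibM_of bir h1 h2 a b c m d k).1, fun _ ⟨_, _, k1, k2, k3⟩ =>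
    ⟨_, _, tauM jac a b c k1 k2 k3⟩⟩

end Vale.Agent.P281Z.Md
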