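import Vale.Agent.P281Z.Mf.Sub

/-!
# P281Z, block MODEL: definitions and statements
-/

open scoped Manifold ContDiff Topology
open Set Filter Function
open Vale.Agent.P272.K Vale.Agent.P285.H281.FD
open Vale.Agent.P277Z (Hol Nz)
open Vale.Agent.P277Z.Slc (Ind LEq Snc)

noncomputable section

namespace Vale.Agent.P281Z.Md

/-- `F` is bounded above on `S` near `x` -/
def Bnd {X : Type} [TopologicalSpace X] (S : Set X) (F : X → ℝ) (x : X) : Prop :=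
  ∃ C : ℝ, ∀ᶠ y in 𝓝 x, y ∈ S → F y ≤ C

section

variable (n : ℕ) {X X₁ : Type} [TopologicalSpace X] [ChartedSpace (Cm n) X] [TopologicalSpace X₁]
  [ChartedSpace (Cm n) X₁]

/-- near `x` the set `S` contains the complement of a hypersurface -/
def Gn (S : Set X) (x : X) : Prop := ∃ t, Hol n t x ∧ Nz t x ∧ ∀ᶠ y in 𝓝 x, t y ≠ 0 → y ∈ S

/-- weak modifications -/
structure WM (u : X₁ → X) : Prop where
  hol : HolM n n u
  surj : Surjective u
  dense : Dense {x | Imm n n u x}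
  one : ∀ x x', Imm n n u x → u x' = u x → x' = x

/-- holomorphic functions extend across `N` -/
structure Har (N : Set X) : Prop where
  closed : IsClosed N
  dense : Dense Nᶜ
  ext : ∀ (U : Set X) (s : X → ℂ), IsOpen U → (∀ x ∈ U, x ∉ N → Hol n s x) →
    ∃ s' : X → ℂ, (∀ x ∈ U, Hol n s' x) ∧ ∀ x ∈ U, x ∉ N → s' x = s x

end

/-- a minor of the differential -/
def mnr {ι : Type} [Fintype ι] [DecidableEq ι] {p : ℕ} (F : (ι → ℂ) → Cm p) (I : Fin p → ι)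
    (z : ι → ℂ) : ℂ :=
  (Matrix.of fun a b : Fin p => fderiv ℂ F z (Pi.single (I b) 1) a).det

/-- **EXC**: the image of the exceptional set is removable -/
def EXC : Prop :=
  ∀ (n : ℕ) (V V₁ : Mf n) (u : V₁.X → V.X), WM n u → Har n (u '' {x | ¬ Imm n n u x})

/-- **JAC**: a minor of minimal order along `z i₀ = 0` which does not involve `i₀` has order zero -/
def JAC : Prop :=
  ∀ (ι : Type) [Fintype ι] [DecidableEq ι] (p : ℕ) (F : (ι → ℂ) → Cm p) (z : ι → ℂ) (i₀ : ι)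
    (I : Fin p → ι) (j : ℕ) (μ : (ι → ℂ) → ℂ) (a : Fin p → (ι → ℂ) → ℂ), AnalyticAt ℂ F z →
    z i₀ = 0 → (∀ b, I b ≠ i₀) → AnalyticAt ℂ μ z → μ z ≠ 0 → (∀ b, AnalyticAt ℂ (a b) z) →
    (∀ᶠ w in 𝓝 z, mnr F I w = w i₀ ^ j * μ w ∧
      ∀ b, mnr F (update I b i₀) w = a b w * mnr F I w) → j = 0

/-- **BIR**: log pluricanonical forms on a log model -/
def BIR : Prop :=
  ∀ (n : ℕ) (V V₁ : Mf n) (u : V₁.X → V.X) (κ κ₁ : Type) [Fintype κ] [Fintype κ₁]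
    (G : κ → Set V.X) (δ : κ → ℚ) (G₁ : κ₁ → Set V₁.X) (δ₁ : κ₁ → ℚ), WM n u → Snc n G →
    Snc n G₁ → (∀ l, 0 ≤ δ l ∧ δ l ≤ 1) → LogM n u G δ G₁ δ₁ → ∀ m j,
    (KapM n n id (Bd.can n V.X) G (fun l => δ l) m j ↔
      KapM n n id (Bd.can n V₁.X) G₁ (fun l => δ₁ l) m j)

/-- **FIBM**: the fibres of a log model -/
def FIBM : Prop :=
  ∀ (n p : ℕ) (M₁ M : Fb n p) u v, M.Ok → M₁.Ok → M₁.Sq M u v → ∀ d a, (M.Fib d a ↔ M₁.Fib d a)

/-- **TAU**: the saturation of `f^* K_Y` -/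
def TAU : Prop :=
  ∀ (n p : ℕ) (M₁ M : Fb n p) u v, M.Ok → M₁.Ok → M₁.Sq M u v → ∀ k, M.Tau k → M₁.Tau k

variable {n : ℕ} {X X₁ : Type} [TopologicalSpace X] [ChartedSpace (Cm n) X] [TopologicalSpace X₁]
  [ChartedSpace (Cm n) X₁] [IsManifold 𝓘(ℂ, Cm n) ω X] [IsManifold 𝓘(ℂ, Cm n) ω X₁] {u : X₁ → X}

theorem wm_of [CompactSpace X₁] [T2Space X₁] [T2Space X] {B : Set X} (h : Modif n u B) :
    WM n u := by
  obtain ⟨h1, h2⟩ := h
  have hc := h2.hol.cont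
  refine ⟨h2.hol, fun y => ?_, h2.dense.mono fun x hx => h2.imm x hx, fun x x' hx e => ?_⟩
  · refine (isCompact_range hc).isClosed.closure_subset_iff.2 (fun z hz => ?_) (h1.2 y)
    exact (h2.one z trivial hz).exists
  · by_contra hne
    obtain ⟨U, U', a1, a2, a3, a4, a5⟩ := t2_separation hne
    have k := (imm_iff_sbm.1 hx).ev (h2.hol.at x) (a2.mem_nhds a4)
    rw [← e] at k
    obtain ⟨z, ⟨b1, ⟨w, b2, b3⟩⟩, b4⟩ := (((a1.eventually_mem a3).and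
      (hc.continuousAt.eventually k)).and_frequently
      (mem_closure_iff_frequently.1 (h2.dense x'))).exists
    exact disjoint_left.1 a5 b1 ((h2.one _ trivial b4).unique rfl b3 ▸ b2)

theorem WM.pre (h : WM n u) {B : Set X} (hB : Thin n B) : Thin n (u ⁻¹' B) :=
  hB.pre h.hol (h.dense.mono fun _ => imm_iff_sbm.1)

theorem model_of (h1 : BIR) (h2 : TAU) (h3 : FIBM) : MODEL := fun n p M₁ M u v a b c =>
  ⟨fun j ⟨m, k1, k2⟩ => c.mu.elim fun _ hB => ⟨m, k1, (h1 n M.X M₁.X u _ _ _ _ _ _ (wm_of hB) a.snc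
    b.snc a.bdry c.log m j).2 k2⟩, h2 n p M₁ M u v a b c, h3 n p M₁ M u v a b c⟩

end Vale.Agent.P281Z.Md
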