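import Vale.Agent.P281Z.Md.Tr

/-!
# P281Z, block MODEL: the bound of a tensor of rank one is a logarithmic bound
-/

open scoped Manifold ContDiff Topology
open Set Filter Function
open Vale.Agent.P272.K Vale.Agent.P285.H281.FD
open Vale.Agent.P277Z
open Vale.Agent.P277Z.Slc (Ind LEq Snc dd)

set_option linter.unusedSectionVars false

noncomputable section

namespace Vale.Agent.P281Z.Md

variable {n p m : ℕ} {X : Type} [TopologicalSpace X] [ChartedSpace (Cm n) X]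
  [IsManifold 𝓘(ℂ, Cm n) ω X] {Θ : Chart n X} {x : X} {S D : Set X} {F : X → Cm p}
  {I : Fin p → Fin n} {i₀ : Fin n} {t : X → ℝ} {T : Cm p → ℝ}

theorem Bnd.cmul {a φ b : X → ℂ} (h : Bnd S (fun y => t y * ‖a y‖ ^ m) x) (ht : ∀ y, 0 ≤ t y)
    (hφ : ContinuousAt φ x) (k : ∀ᶠ y in 𝓝 x, b y = φ y * a y) :
    Bnd S (fun y => t y * ‖b y‖ ^ m) x :=
  (h.mul (bnd_cont (F := fun y => ‖φ y‖ ^ m) (hφ.norm.pow m)) (fun y => mul_nonneg (ht y) (by positivity))
    fun _ => by positivity).mono (k.mono fun y e hy => ⟨hy, le_of_eq (by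
      rw [e, norm_mul, mul_pow]
      ring)⟩)

/-- points of the hyperplane with a general image -/
theorem freq_img (h : Ca Θ x) (hF : AnV n F x) (hI : ∀ b, I b ≠ i₀) (h0 : mn F Θ I x ≠ 0)
    {P : Cm p → Prop} (hP : ∃ᶠ v in 𝓝 (F x), P v) : ∃ᶠ y in 𝓝 x, Θ y i₀ = Θ x i₀ ∧ P (F y) := by
  let A : Cm p →L[ℂ] Cm n := ∑ b, (ContinuousLinearMap.proj b).smulRight (Pi.single (I b) 1)
  have hA : ∀ b, A (Pi.single b 1) = Pi.single (I b) 1 := fun b => by
    simp [A, Pi.single_apply]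
  have h1 : HasStrictFDerivAt (fun s => Θ x + A s) A 0 := A.hasStrictFDerivAt.const_add _
  have h2 : HasStrictFDerivAt (fun s => F (Θ.symm (Θ x + A s))) ((dv F Θ x).comp A) 0 :=
    HasStrictFDerivAt.comp (g := fun z => F (Θ.symm z)) 0
      (by rw [map_zero, add_zero]; exact (h.an hF).hasStrictFDerivAt) h1
  have h3 : LinearMap.det ((dv F Θ x).comp A : Cm p →ₗ[ℂ] Cm p) ≠ 0 := by
    rw [← LinearMap.det_toMatrix']
    refine fun c => h0 (Eq.trans (congrArg Matrix.det ?_) c)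
    ext a b
    simp only [Matrix.of_apply, ← hA]
    rfl
  have h4 := h2.map_nhds_eq_of_surj (LinearMap.range_eq_top.2 (LinearMap.injective_iff_surjective.1
    (LinearMap.ker_eq_bot.1 ((LinearMap.isUnit_iff_ker_eq_bot _).1
      ((LinearMap.isUnit_iff_isUnit_det _).2 h3.isUnit)))))
  rw [map_zero, add_zero, Θ.left_inv h.2] at h4
  have h5 : Tendsto (fun s => Θ x + A s) (𝓝 0) (𝓝 (Θ x)) := by
    simpa only [ContinuousAt, map_zero, add_zero] using h1.continuousAt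
  rw [← h4, frequently_map] at hP
  refine ((Θ.tendsto_symm h.2).comp h5).frequently ((hP.and_eventually
    (h5.eventually (Θ.open_target.mem_nhds (Θ.map_source h.2)))).mono fun s k => ⟨?_, k.1⟩)
  rw [comp_apply, Θ.right_inv k.2]
  simp [A, (hI _).symm]

theorem key (hJ : JAC) {ζ : X → ℂ} (h : Ca Θ x) (hF : AnV n F x) (hζ : LEq n D x ζ) (hx : x ∈ D)
    (he : ∀ᶠ y in 𝓝 x, Θ y i₀ = ζ y) (ht : ∀ y, 0 ≤ t y)
    (hT : ∀ᶠ y in 𝓝 x, t y = T (F y) ∧ ∃ᶠ v in 𝓝 (F y), ContinuousAt T v)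
    (hb : ∀ J, Bnd S (fun y => t y * ‖ζ y * mn F Θ J y‖ ^ m) x) (hI : ∀ b, I b ≠ i₀) :
    ∃ᶠ w in 𝓝 x, w ∈ D ∧ Bnd S (fun y => t y * ‖mn F Θ I y‖ ^ m) w := by
  by_cases h0 : Nz (mn F Θ I) x
  swap
  · exact (frequently_pure.2 ⟨hx, (hb I).cmul ht continuousAt_const (φ := fun _ => 0)
      ((not_not.1 h0).mono fun y k => by rw [k, zero_mul])⟩).filter_mono (pure_le_nhds x)
  obtain ⟨j, b, b1, b2, b3⟩ := exists_ord hζ hx (hol_mn h hF I) h0
  by_cases hd : ∀ J, Dvd n (fun y => ζ y ^ j) (mn F Θ J) x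
  · choose c c1 c2 using hd
    refine frequently_frequently_nhds.1 ((((ndv hζ hx b1 b2).self_of_nhds hx).and_eventually
      ((h.near.and ((anV_near hF).and (b1.near.and (eventually_all.2 fun J => (c1 J).near)))).and
      (h.near.and ((anV_near hF).and (hζ.1.and (he.and (b3.and ((eventually_all.2 c2).and
        (hT.and hT.eventually_nhds))))))).eventually_nhds)).mono ?_)
    rintro z ⟨⟨a1, a2⟩, ⟨a3, a4, a5, a6⟩, a7⟩
    obtain ⟨-, -, a8, a9, a10, -, a11, -⟩ := a7.self_of_nhds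
    have h1 : Θ z i₀ = 0 := a9.trans (a8.2 a1)
    obtain rfl : j = 0 := by
      refine hJ (Fin n) p (fun w => F (Θ.symm w)) (Θ z) i₀ I j (fun w => b (Θ.symm w))
        (fun k w => c (update I k i₀) (Θ.symm w) / b (Θ.symm w)) (a3.an a4) h1 hI (a3.an a5)
        (by rwa [Θ.left_inv a3.2]) (fun k => a3.an (F := fun y => c _ y / b y) ((a6 _).div a5 a2)) ?_
      filter_upwards [a3.ev a7, a3.ev (a5.ne_near a2), Θ.eventually_right_inverse
        (Θ.map_source a3.2)] with w ⟨_, _, _, d1, d2, d3, _⟩ d4 d5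
      simp only [mn, d5] at d1 d2 d3
      rw [d1, d2]
      exact ⟨rfl, fun k => by rw [d3]; field_simp⟩
    refine ((freq_img a3 a4 hI (by rwa [a10, pow_zero, one_mul]) a11.2).and_eventually a7).mono ?_
    rintro y ⟨⟨d1, d2⟩, d3, d4, d5, d6, -, -, -, d7⟩
    exact ⟨d5.1 (by rw [← d6, d1, h1]), (bnd_cont ((d2.comp d4.cont).mul
      ((hol_mn d3 d4 I).cont.norm.pow m))).mono (d7.mono fun w k hw => ⟨hw, by rw [k.1]; rfl⟩)⟩
  · obtain ⟨J, hd⟩ := not_forall.1 hd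
    obtain ⟨j', b', c1, c2, c3⟩ := exists_ord hζ hx (hol_mn h hF J) fun k =>
      hd ⟨fun _ => 0, hol_const _ _, k.mono fun y k => by rw [k, zero_mul]⟩
    obtain ⟨r, rfl⟩ := Nat.exists_eq_add_of_lt (show j' < j from not_le.1 fun k => by
      obtain ⟨r, rfl⟩ := Nat.exists_eq_add_of_le k
      exact hd ⟨fun y => ζ y ^ r * b' y, (hζ.hol.pow r).mul c1, c3.mono fun y k => by rw [k]; ring⟩)
    refine (((ndv hζ hx c1 c2).self_of_nhds hx).and_eventually ((hb J).near.and (hζ.hol.near.and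
      (b1.near.and (c1.near.and (b3.and c3).eventually_nhds))))).mono ?_
    rintro z ⟨⟨a1, a2⟩, a3, a4, a5, a6, a7⟩
    refine ⟨a1, a3.cmul ht (((a4.pow r).mul a5).div a6 a2).cont ?_⟩
    filter_upwards [a7, a6.ne_near a2] with y d1 d2
    rw [d1.1, d1.2]
    field_simp
    ring

open Classical in
/-- logarithmic weights -/
def wt (Θ : Chart n X) (A : Set (Fin n)) (i : Fin n) (y : X) : ℂ := if i ∈ A then Θ y i else 1

theorem wt_hol (h : Ca Θ x) (A : Set (Fin n)) (i : Fin n) : Hol n (wt Θ A i) x := by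
  unfold wt
  split_ifs
  exacts [h.anV.hol i, hol_const _ _]

theorem log (hJ : JAC) {κ : Type} [Fintype κ] {G : κ → Set X} {ζ : κ → X → ℂ} {c : κ → ℝ}
    (hζ : ∀ l, LEq n (G l) x (ζ l)) (hi : Ind n (fun l : {l // x ∈ G l} => ζ l) x) (h : Ca Θ x)
    {j : {l // x ∈ G l} → Fin n} (hj : ∀ y ∈ Θ.source, ∀ a, Θ y (j a) = ζ a y) (hF : AnV n F x)
    {τ : X → ℂ} (hS : Gn n S x) (hG : S ⊆ off G) (hτ : ∀ᶠ y in 𝓝 x, y ∈ S → Hol n τ y)
    (hT : ∀ᶠ y in 𝓝 x, ‖τ y‖ = T (F y) ∧ ∃ᶠ v in 𝓝 (F y), ContinuousAt T v) (hc : ∀ l, c l ≤ m)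
    (hb : LB S (fun y => ‖τ y‖ * ∏ l, ‖ζ l y‖ ^ c l) F Θ (fun _ _ => 1) m x) :
    LB S (fun y => ‖τ y‖) F Θ (wt Θ (range j)) m x := fun I => by
  classical
  have hw : ∀ {y}, Ca Θ y → ∀ s : Finset (Fin p), Hol n (fun y => ∏ b ∈ s, wt Θ (range j) (I b) y) y :=
    fun k s => Hol.prod s fun b _ => wt_hol k _ _
  have h0 : ∀ᶠ y in 𝓝 x, ∀ l, LEq n (G l) y (ζ l) := eventually_all.2 fun l => (hζ l).near
  have h1 : ∀ {y}, (∀ l, LEq n (G l) y (ζ l)) →
      LB S (fun y => ‖τ y‖ * ∏ l, ‖ζ l y‖ ^ c l) F Θ (fun _ _ => 1) m y → ∀ c' : κ → ℝ,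
      (∀ l, ζ l y ≠ 0 ∨ c l ≤ c' l) → ∀ J,
      Bnd S (fun y => ‖τ y‖ * ‖mn F Θ J y‖ ^ m * ∏ l, ‖ζ l y‖ ^ c' l) y := fun k1 k2 c' k3 J =>
    Bnd.wt (by simpa only [mul_right_comm] using lb_one.1 k2 J) (fun _ => by positivity)
      (fun l => (k1 l).hol.cont) ((ne_off k1).mono fun _ a b => a (hG b)) k3
  have h2 := ext1 (c := fun _ => 0)
    (h := fun y => τ y * ((∏ b, wt Θ (range j) (I b) y) * mn F Θ I y) ^ m) hζ hi hS hG ?_ ⟨m, ?_⟩ ?_
  · simpa only [Real.rpow_zero, Finset.prod_const_one, mul_one, norm_mul (τ _), norm_pow] using h2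
  · filter_upwards [hτ, h.near, anV_near hF] with y a1 a2 a3 hy using
      (a1 hy).mul (((hw a2 _).mul (hol_mn a2 a3 I)).pow m)
  · have k := Bnd.cmul (t := fun y => ‖τ y‖ * ‖∏ l, ζ l y‖ ^ m) (m := m) (by
      simpa only [prod_const, mul_right_comm] using h1 hζ hb (fun _ => m) (fun l => .inr (hc l)) I)
      (fun _ => by positivity) (hw h Finset.univ).cont (.of_forall fun _ => rfl)
    simpa only [norm_mul (τ _), norm_pow, mul_right_comm] using k
  filter_upwards [h0, h.near, anV_near hF, hb.near, hT.eventually_nhds, eventually_all.2 fun l =>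
    show ∀ᶠ y in 𝓝 x, y ∈ G l → x ∈ G l from by_cases (fun k => .of_forall fun _ _ => k) fun k =>
      ((hζ l).not_mem_near k).mono fun _ a b => absurd b a] with z a1 a2 a3 a4 a5 a6 l hl a7
  have h3 : ∀ᶠ y in 𝓝 z, Θ y (j ⟨l, a6 l hl⟩) = ζ l y := a2.near.mono fun y k => hj y k.2 _
  have h4 : ∀ J, Bnd S (fun y => ‖τ y‖ * ‖ζ l y * mn F Θ J y‖ ^ m) z := fun J => by
    have k := h1 a1 a4 (Pi.single l m) (fun l' => (eq_or_ne l' l).symm.imp (a7 l')
      (by rintro rfl; simpa using hc _)) J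
    simpa only [prod_single, norm_mul, mul_pow, mul_assoc, mul_comm (‖ζ l _‖ ^ m)] using k
  simp only [Real.rpow_zero, Finset.prod_const_one, mul_one, norm_mul (τ _), norm_pow]
  by_cases h5 : ∃ b, I b = j ⟨l, a6 l hl⟩
  · obtain ⟨b, h5⟩ := h5
    refine (frequently_pure.2 ⟨hl, (h4 I).cmul (fun _ => norm_nonneg _)
      (hw a2 (Finset.univ.erase b)).cont (h3.mono fun y k => ?_)⟩).filter_mono (pure_le_nhds z)
    rw [← Finset.prod_erase_mul _ _ (Finset.mem_univ b), h5, wt, if_pos (mem_range_self _), k,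
      mul_assoc]
  · exact ((key hJ a2 a3 (a1 l) hl h3 (fun _ => norm_nonneg _) a5 h4 (not_exists.1 h5)).and_eventually
      a2.near).mono fun y k => ⟨k.1.1, k.1.2.cmul (fun _ => norm_nonneg _) (hw k.2 _).cont
        (.of_forall fun _ => rfl)⟩

end Vale.Agent.P281Z.Md
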