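import Vale.Agent.P281Z.Md.Bir

/-!
# P281Z, block MODEL: the saturation of the canonical bundle of the base
-/

open scoped Manifold ContDiff Topology
open Set Filter Function
open Vale.Agent.P272.K Vale.Agent.P285.H281.FD
open Vale.Agent.P277Z
open Vale.Agent.P277Z.Slc (Ind LEq Snc dd isLB_can)

set_option linter.unusedSectionVars false

noncomputable section

namespace Vale.Agent.P281Z.Md

variable {n p m : ℕ} {Y Y₁ : Type} [TopologicalSpace Y] [ChartedSpace (Cm p) Y]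
  [TopologicalSpace Y₁] [ChartedSpace (Cm p) Y₁] [IsManifold 𝓘(ℂ, Cm p) ω Y]
  [IsManifold 𝓘(ℂ, Cm p) ω Y₁] {v : Y₁ → Y}

theorem WM.gen (h : WM p v) {y : Y₁} {P : Y → Prop} (k : ∀ᶠ z in gen {v y}, P z) :
    ∀ᶠ z in gen {y}, P (v z) := by
  refine gen_of_open ((h.hol.cont.continuousAt.eventually (gen_near k)).eventually_nhds.mono
    fun z a => frequently_frequently_nhds.1 (((mem_closure_iff_frequently.1
      (h.dense z)).and_eventually a).mono fun w b => ?_))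
  exact ((imm_iff_sbm.1 b.1).freq (h.hol.at w) (gen_frequently b.2)).mono fun _ c =>
    h.hol.cont.continuousAt.eventually c

theorem mer_pb (h : WM p v) {Q : Set Y} (hQ : Thin p Q) {τ : Chart p Y → Y → ℂ} (h1 : Ten m Qᶜ τ)
    (h2 : ∀ e y, At e y → Mer p (τ e) y) {e : Chart p Y₁} {y : Y₁} (he : At e y) :
    Mer p (pb v m τ e) y := by
  have hc := at_chart (n := p) (v y)
  obtain ⟨a, b, a1, a2, a3, a4⟩ := h2 _ _ hc
  refine ⟨_, _, (h.hol.hol a1).mul ((hol_mn (ca_of he) ((h.hol.at y).anV hc) id).pow m),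
    h.hol.hol a2, nz_of_gen (h.gen (Nz.gen a3 a2)), ?_⟩
  filter_upwards [h.gen a4, h.gen (hQ.gen _), gen_of_nhds (pb_ev h1 (h.hol.at y) he hc)]
    with z b1 b2 b3
  rw [b3 b2, ← b1, mul_right_comm]

theorem tb_pull (hJ : JAC) {M₁ M : Fb n p} {u : M₁.X.X → M.X.X} {v : M₁.Y.X → M.Y.X} (hM : M.Ok)
    (hM₁ : M₁.Ok) (h : M₁.Sq M u v) {Q : Set M.Y.X} (hQ : Thin p Q)
    {τ : Chart p M.Y.X → M.Y.X → ℂ} (hτ : TB n p M.f M.G (fun l => m * M.δ l) m Q τ) :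
    TB n p M₁.f M₁.G (fun l => m * M₁.δ l) m (v ⁻¹' Q) (pb v m τ) := by
  obtain ⟨_, hu⟩ := h.mu
  obtain ⟨_, hv⟩ := h.mv
  have := hM.conn
  have := hM₁.conn
  have h1 : Ten m Qᶜ τ := ⟨hτ.hol, hτ.chg⟩
  have h2 := h1.pb (O₁ := (v ⁻¹' Q)ᶜ) hQ.closed.isOpen_compl fun y k => ⟨k, hv.hol.at y⟩
  refine ⟨h2.hol, fun e y => mer_pb (wm_of hv) hQ h1 hτ.mer, h2.chg, fun x e e' he he' ζ₁ hζ₁ I => ?_⟩
  have hf := hM.fibn.hol
  have hf₁ := hM₁.fibn.hol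
  have hc := at_chart (n := p) (M.f (u x))
  set c := chartAt (Cm p) (M.f (u x))
  have hc' : At c (v (M₁.f x)) := h.comm x ▸ hc
  have hd := at_chart (n := n) (u x)
  obtain ⟨C, hC⟩ := lb_one.1 (pull_bd (T := fun w => ‖τ c (c.symm w)‖) (τ := fun y => τ c (M.f y))
    (S := (M.f ⁻¹' Q)ᶜ ∩ off M.G) (S₁ := (M₁.f ⁻¹' (v ⁻¹' Q))ᶜ ∩ off M₁.G) hJ hu.hol hM.snc hM₁.snc
    (fun l => (hM.bdry l).2) h.log ((hf.at _).anV hc)
    ((gn_of_thin (hQ.pre_surj hf hM.fibn.surj) _).inter (gn_off hM.snc _)) inter_subset_right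
    ((gn_of_thin ((hv.pre_thin hQ).pre_surj hf₁ hM₁.fibn.surj) _).inter (gn_off hM₁.snc _))
    inter_subset_right (fun y k => ⟨fun a => k.1 (show v (M₁.f y) ∈ Q from h.comm y ▸ a),
      h.log.sub y k.2⟩) ((hf.cont.continuousAt.eventually (at_near hc)).mono fun y a b =>
        hf.hol (hτ.hol c _ a b.1)) (gen_val hf.cont.continuousAt hc hQ.2 (hτ.hol c)) (ca_of hd)
    (fun ζ hζ => lb_one.2 fun J => (hτ.bd _ _ c hd hc ζ hζ J).imp fun C k => k.mono fun y a b =>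
      (mul_right_comm _ _ _).trans_le (a b.1 b.2)) (ca_of he) hζ₁) I
  refine ⟨C, ?_⟩
  filter_upwards [hC, at_near he, hf₁.cont.continuousAt.eventually ((at_near he').and
    ((hv.hol.cont.continuousAt.eventually (at_near hc')).and (pb_ev h1 (hv.hol.at _) he' hc')))]
    with y a1 a2 ⟨a3, a4, a5⟩ b1 b2
  refine le_trans (le_of_eq ?_) (a1 ⟨b1, b2⟩)
  simp only [h.comm]
  rw [a5 b1, mn_left (F := fun z => c (v z)) (ca_of a2) (ca_of a3) (hf₁.at y) ((hv.hol.at _).anV a4),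
    norm_mul, norm_mul, norm_pow, mul_pow]
  exact (mul_right_comm _ _ _).trans (by rw [mul_right_comm _ (_ ^ m), mul_assoc]; rfl)

theorem tauM (hJ : JAC) {M₁ M : Fb n p} {u : M₁.X.X → M.X.X} {v : M₁.Y.X → M.Y.X} (hM : M.Ok)
    (hM₁ : M₁.Ok) (h : M₁.Sq M u v) {k : ℕ} {Q : Set M.Y.X} (hQ : Thin p Q)
    {τ : Fin (k + 1) → Chart p M.Y.X → M.Y.X → ℂ}
    (hτ : ∀ b, TB n p M.f M.G (fun l => m * M.δ l) m Q (τ b))
    (hr : Rk p Qᶜ ((Bd.can p M.Y.X).pow m) τ) : Thin p (v ⁻¹' Q) ∧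
      (∀ b, TB n p M₁.f M₁.G (fun l => m * M₁.δ l) m (v ⁻¹' Q) (pb v m (τ b))) ∧
      Rk p (v ⁻¹' Q)ᶜ ((Bd.can p M₁.Y.X).pow m) fun b => pb v m (τ b) :=
  let ⟨_, hv⟩ := h.mv
  ⟨hv.pre_thin hQ, fun b => tb_pull hJ hM hM₁ h hQ (hτ b), rk_pull (wm_of hv)
    (fun b => ⟨(hτ b).hol, (hτ b).chg⟩) hQ.closed.isOpen_compl
    (hv.pre_thin hQ).closed.isOpen_compl (hv.pre_thin hQ).2 hr⟩

theorem tau_of (hJ : JAC) : TAU := fun _ _ _ _ _ _ a b c _ ⟨m, _, _, h1, h2, h3, h4⟩ =>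
  ⟨m, _, _, h1, tauM hJ a b c h2 h3 h4⟩

end Vale.Agent.P281Z.Md
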